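import Vale.Agent.P165.Main3

/-! Abstract tree metric used for the port to arbitrary locally finite trees. -/

open Classical
open scoped ENNReal

namespace Vale.Agent.P165T

open Vale.Agent.P151 Vale.Agent.P165

universe u

/-- the properties of the distance of a tree of bounded degree without leaves and with branching -/
class TrS (X : Type*) where
  d : X → X → ℕ
  self : ∀ u, d u u = 0
  comm : ∀ u v, d u v = d v u
  tri : ∀ u v w, d u w ≤ d u v + d v w
  eqz : ∀ u v, d u v = 0 → u = v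
  uniq : ∀ r u u' v, d r v = d r u + d u v → d r v = d r u' + d u' v → d r u = d r u' → u = u'
  pre : ∀ r v j, j ≤ d r v → ∃ u, d r u = j ∧ d r v = d r u + d u v
  trip : ∀ r v t, ∃ u, d r v = d r u + d u v ∧ d r t = d r u + d u t ∧
    d r v + d r t = d v t + 2 * d r u
  br : ∀ r u v, ∃ u', d r u' = d r u + d u u' ∧ d r u' = d r u + 1 ∧ ¬ d r v = d r u' + d u' v
  fin : ∀ r n, {v | d r v ≤ n}.Finite
  cnt : ∃ B : ℕ, ∀ r, (fin r 1).toFinset.card ≤ B

variable {TX : Type*} [TrS TX]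

def dd (u v : TX) : ℕ := TrS.d u v

def half (s t : TX) : Set TX := {v | dd v t < dd v s}

def cone (r u : TX) : Set TX := {v | dd r v = dd r u + dd u v}

structure TreeAct {G : Type u} [Group G] (ρ : G →* Equiv.Perm TX) : Prop where
  iso : ∀ g u v, dd (ρ g u) (ρ g v) = dd u v
  cof : ∃ s : Finset TX, ∀ v, ∃ g, ρ g v ∈ s
  irr : ∀ s t s' t', dd s t = 1 → dd s' t' = 1 → ∃ g, ∀ v ∈ half s' t', ρ g v ∈ half s t

lemma dd_self (u : TX) : dd u u = 0 := TrS.self u
lemma dd_comm (u v : TX) : dd u v = dd v u := TrS.comm u v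
lemma dd_tri (u v w : TX) : dd u w ≤ dd u v + dd v w := TrS.tri u v w
lemma dd_eq_zero {u v : TX} : dd u v = 0 ↔ u = v := ⟨TrS.eqz u v, fun h => h ▸ dd_self u⟩
lemma geo_mem {r u v : TX} : v ∈ cone r u ↔ dd r v = dd r u + dd u v := Iff.rfl
lemma cone_uniq {r u u' v : TX} (h : v ∈ cone r u) (h' : v ∈ cone r u')
    (e : dd r u = dd r u') : u = u' := TrS.uniq r u u' v h h' e
lemma exists_pre (r v : TX) {j : ℕ} (hj : j ≤ dd r v) : ∃ u, dd r u = j ∧ v ∈ cone r u :=
  TrS.pre r v j hj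
lemma tripod (r v t : TX) :
    ∃ u, v ∈ cone r u ∧ t ∈ cone r u ∧ dd r v + dd r t = dd v t + 2 * dd r u := TrS.trip r v t
lemma branch (r u v : TX) : ∃ u', u' ∈ cone r u ∧ dd r u' = dd r u + 1 ∧ v ∉ cone r u' :=
  TrS.br r u v
lemma ball_fin (r : TX) (n : ℕ) : {v | dd r v ≤ n}.Finite := TrS.fin r n
lemma cone_trans {r u u' v : TX} (h : u' ∈ cone r u) (h' : v ∈ cone r u') : v ∈ cone r u := by
  rw [geo_mem] at *
  have := dd_tri u u' v
  have := dd_tri r u v
  omega
lemma cone_nest {r u u' v : TX} (h : v ∈ cone r u) (h' : v ∈ cone r u')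
    (e : dd r u ≤ dd r u') : u' ∈ cone r u := by
  obtain ⟨x, h1, h2⟩ := exists_pre r u' e
  rwa [cone_uniq h (cone_trans h2 h') h1.symm]

lemma ball_exp : ∃ Dg : ℕ, 1 ≤ Dg ∧ ∀ (r : TX) (n : ℕ),
    (ball_fin r n).toFinset.card ≤ Dg ^ n := by
  obtain ⟨B, hB⟩ := TrS.cnt (X := TX)
  refine ⟨B + 1, by omega, fun r n => ?_⟩
  induction n with
  | zero =>
    rw [pow_zero]
    refine Finset.card_le_one.2 fun a ha b hb => ?_
    have ha' : dd r a = 0 := by simpa using ha
    have hb' : dd r b = 0 := by simpa using hb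
    rw [← dd_eq_zero.1 ha', ← dd_eq_zero.1 hb']
  | succ n ih =>
    have hs : (ball_fin r (n + 1)).toFinset ⊆
        (ball_fin r n).toFinset.biUnion fun x => (ball_fin x 1).toFinset := by
      intro v hv
      have hv' : dd r v ≤ n + 1 := by simpa using hv
      obtain ⟨x, hx, hc⟩ := exists_pre r v (j := dd r v - 1) (by omega)
      have hc' : dd r v = dd r x + dd x v := hc
      refine Finset.mem_biUnion.2 ⟨x, ?_, ?_⟩
      · have : dd r x ≤ n := by omega
        simpa using this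
      · have : dd x v ≤ 1 := by omega
        simpa using this
    refine (Finset.card_le_card hs).trans ((Finset.card_biUnion_le_card_mul _ _ (B + 1)
      fun x _ => (hB x).trans (Nat.le_succ B)).trans ?_)
    rw [pow_succ]
    exact Nat.mul_le_mul_right _ ih

lemma ball_count (n : ℕ) : ∃ B : ℕ, ∀ r : TX, ∑' v, ii (dd r v ≤ n) ≤ B := by
  obtain ⟨Dg, -, h⟩ := ball_exp (TX := TX)
  refine ⟨Dg ^ n, fun r => ?_⟩
  rw [tsum_eq_sum (s := (ball_fin r n).toFinset) (fun v hv => ii_false (by simpa using hv))]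
  refine (Finset.sum_le_card_nsmul _ _ 1 fun v _ => ii_le_one _).trans ?_
  rw [nsmul_one]
  exact_mod_cast h r n

end Vale.Agent.P165T
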