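import Vale.Agent.P165.Defs

/-! Definition used in the statement: irreducible actions on locally finite trees. -/

namespace Vale.Agent.P165T

/-- `T` is a locally finite tree with all degrees at least three, and `G` acts on it by
automorphisms so that every half-tree can be moved into every other one (the half-tree of the
directed edge `s, t` is the set of vertices closer to `t` than to `s`). -/
structure IrrAct {X : Type*} (T : SimpleGraph X) (G : Type*) [Group G] [MulAction G X] :
    Prop where
  tree : T.IsTree
  locfin : ∀ v, (T.neighborSet v).Finite
  deg : ∀ v, 3 ≤ (T.neighborSet v).ncard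
  adj : ∀ (g : G) (u v : X), T.Adj (g • u) (g • v) ↔ T.Adj u v
  irr : ∀ s t s' t', T.Adj s t → T.Adj s' t' →
    ∃ g : G, ∀ v, T.dist v t' < T.dist v s' → T.dist (g • v) t < T.dist (g • v) s

end Vale.Agent.P165T
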