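import Vale.Agent.P165T.TrA

namespace Vale.Agent.P165T

variable {X : Type*} {T : SimpleGraph X}

lemma trc_aux (hT : T.IsTree) (r v : X) (d : ℕ) : ∀ t, T.dist v t = d →
    ∃ u, T.dist r v = T.dist r u + T.dist u v ∧ T.dist r t = T.dist r u + T.dist u t ∧
      T.dist r v + T.dist r t = T.dist v t + 2 * T.dist r u := by
  have hc : T.Connected := hT.connected
  induction d with
  | zero =>
    intro t ht
    have e : v = t := hc.dist_eq_zero_iff.1 ht
    subst e
    exact ⟨v, by simp, by simp, by simp [two_mul]⟩
  | succ d ih =>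
    intro t ht
    obtain ⟨t', h1, h2⟩ := tr_pre hc v t (j := d) (by omega)
    have h3 : T.dist t' t = 1 := by omega
    obtain ⟨u, a1, a2, a3⟩ := ih t' h1
    have c1 : T.dist t t' = T.dist t' t := SimpleGraph.dist_comm
    have c2 : T.dist t v = T.dist v t := SimpleGraph.dist_comm
    have c3 : T.dist u v = T.dist v u := SimpleGraph.dist_comm
    rcases hT.dist_eq_dist_add_one_of_adj r (SimpleGraph.dist_eq_one_iff_adj.1 h3) with h | h
    · by_cases h0 : T.dist u t' = 0
      · exact ⟨t, by omega, by simp, by omega⟩
      · exfalso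
        obtain ⟨s, b1, b2⟩ := tr_pre hc u t' (j := T.dist u t' - 1) (by omega)
        have t1 : T.dist r s ≤ T.dist r u + T.dist u s := hc.dist_triangle
        have t2 : T.dist r t' ≤ T.dist r s + T.dist s t' := hc.dist_triangle
        have e : s = t := tr_uniq hT (r := r) (v := t') (by omega) (by omega) (by omega)
        subst e
        have t3 : T.dist v s ≤ T.dist v u + T.dist u s := hc.dist_triangle
        omega
    · have t1 : T.dist u t ≤ T.dist u t' + T.dist t' t := hc.dist_triangle
      have t2 : T.dist r t ≤ T.dist r u + T.dist u t := hc.dist_triangle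
      exact ⟨u, a1, by omega, by omega⟩

lemma tr_trip (hT : T.IsTree) (r v t : X) : ∃ u, T.dist r v = T.dist r u + T.dist u v ∧
    T.dist r t = T.dist r u + T.dist u t ∧
    T.dist r v + T.dist r t = T.dist v t + 2 * T.dist r u := trc_aux hT r v _ t rfl

end Vale.Agent.P165T
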