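import Vale.Agent.P165T.TrA

namespace Vale.Agent.P165T

variable {X : Type*} {T : SimpleGraph X}

lemma tr_branch (hT : T.IsTree) (hd : ∀ v, 3 ≤ (T.neighborSet v).ncard) (r u v : X) :
    ∃ u', T.dist r u' = T.dist r u + T.dist u u' ∧ T.dist r u' = T.dist r u + 1 ∧
      ¬ T.dist r v = T.dist r u' + T.dist u' v := by
  by_contra hcon
  push Not at hcon
  have h1 : ∀ w ∈ T.neighborSet u, T.dist r u = T.dist r w + T.dist w u ∧
      T.dist r u = T.dist r w + 1 ∨
      T.dist r w = T.dist r u + 1 ∧ T.dist r v = T.dist r w + T.dist w v := by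
    intro w hw
    have ha : T.Adj u w := hw
    have d1 : T.dist u w = 1 := SimpleGraph.dist_eq_one_iff_adj.2 ha
    have d2 : T.dist w u = 1 := SimpleGraph.dist_eq_one_iff_adj.2 ha.symm
    rcases hT.dist_eq_dist_add_one_of_adj r ha with h | h
    · exact Or.inl ⟨by rw [d2, h], h⟩
    · exact Or.inr ⟨h, hcon w (by rw [d1, h]) h⟩
  have hfin : (T.neighborSet u).Finite := Set.finite_of_ncard_pos (by have := hd u; omega)
  obtain ⟨a, b, c, ha, hb, hc, hab, hac, hbc⟩ := (Set.two_lt_ncard_iff hfin).1 (hd u)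
  have A : ∀ {x y : X}, (T.dist r u = T.dist r x + T.dist x u ∧ T.dist r u = T.dist r x + 1) →
      (T.dist r u = T.dist r y + T.dist y u ∧ T.dist r u = T.dist r y + 1) → x = y :=
    fun hx hy => tr_uniq hT hx.1 hy.1 (by omega)
  have B : ∀ {x y : X}, (T.dist r x = T.dist r u + 1 ∧ T.dist r v = T.dist r x + T.dist x v) →
      (T.dist r y = T.dist r u + 1 ∧ T.dist r v = T.dist r y + T.dist y v) → x = y :=
    fun hx hy => tr_uniq hT hx.2 hy.2 (by omega)
  rcases h1 a ha with x | x <;> rcases h1 b hb with y | y <;> rcases h1 c hc with z | z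
  · exact hab (A x y)
  · exact hab (A x y)
  · exact hac (A x z)
  · exact hbc (B y z)
  · exact hbc (A y z)
  · exact hac (B x z)
  · exact hab (B x y)
  · exact hab (B x y)

end Vale.Agent.P165T
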