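import Vale.Agent.P165T.PB
import Vale.Agent.P165T.PE
import Vale.Agent.P165T.TrC
import Vale.Agent.P165T.TrD
import Vale.Agent.P165T.Defs

open Classical
open scoped ENNReal

namespace Vale.Agent.P165T

open Vale.Agent.P151 Vale.Agent.P165

universe u

variable {V : Type*}

lemma far_translate4 {TX : Type*} [TrS TX] {G : Type u} [Group G] {ρ : G →* Equiv.Perm TX}
    (hρ : TreeAct ρ) (r : TX) (n : ℕ) : ∃ g : G, n ≤ dd r (ρ g r) := by
  obtain ⟨s, hs⟩ := hρ.cof
  obtain ⟨v, -, hv⟩ := exists_far r r (n + s.sup (dd r))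
  obtain ⟨g, hg⟩ := hs v
  refine ⟨g⁻¹, ?_⟩
  have h1 := dd_tri r (ρ g⁻¹ r) v
  have h2 : dd (ρ g⁻¹ r) v = dd r (ρ g v) := by
    rw [← hρ.iso g]; simp
  have h3 : dd r (ρ g v) ≤ s.sup (dd r) := Finset.le_sup (f := dd r) hg
  rw [dd_self] at hv
  omega

theorem main4 {TX : Type*} [TrS TX] {Γ : SimpleGraph V} {G : Type u} [Group G] [MulAction G V]
    (hG : Geom Γ G) {ρ : G →* Equiv.Perm TX} (hρ : TreeAct ρ) (o : TX) : pc Γ < pu Γ := by
  obtain ⟨κ, hκ⟩ := exists_coord hG.free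
  have hs : Tj Γ ρ (fun v => ρ (κ v) o) := ⟨hG, hρ, fun g v => by simp [hκ]⟩
  refine main_of hG (fun v => ρ (κ v) o) (fun x n => ?_) fun p₀ hp₀ => ?_
  · obtain ⟨g, hg⟩ := far_translate4 hρ (ρ (κ x) o) n
    exact ⟨g, by rwa [hκ, map_mul, Equiv.Perm.mul_apply]⟩
  · obtain ⟨D₀, hH⟩ := hs.har hp₀
    obtain ⟨B, hB, hkey⟩ := hs.key hp₀ hH
    obtain ⟨L, Δ, C, -, hC, hker⟩ := hs.ker2 hp₀ hH 0
    exact ⟨L, Δ, fun d => C d * B, fun d => ENNReal.mul_ne_top (hC d) hB, fun p h0 h1 hχ =>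
      (hker p h0 h1 hχ).monoK fun d => mul_le_mul_right (hkey p h0 h1 hχ) _⟩

lemma dist_smul_le {X : Type*} {T : SimpleGraph X} {G : Type*} [Group G] [MulAction G X]
    (hc : T.Connected) (h : ∀ (g : G) (u v : X), T.Adj (g • u) (g • v) ↔ T.Adj u v)
    (g : G) (u v : X) : T.dist (g • u) (g • v) ≤ T.dist u v := by
  obtain ⟨p, hp⟩ := hc.exists_walk_length_eq_dist u v
  let f : T →g T := ⟨fun x => g • x, fun {a b} hab => (h g a b).2 hab⟩
  have := SimpleGraph.dist_le (p.map f)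
  rwa [SimpleGraph.Walk.length_map, hp] at this

lemma dist_smul' {X : Type*} {T : SimpleGraph X} {G : Type*} [Group G] [MulAction G X]
    (hc : T.Connected) (h : ∀ (g : G) (u v : X), T.Adj (g • u) (g • v) ↔ T.Adj u v)
    (g : G) (u v : X) : T.dist (g • u) (g • v) = T.dist u v := by
  refine le_antisymm (dist_smul_le hc h g u v) ?_
  have := dist_smul_le hc h g⁻¹ (g • u) (g • v)
  rwa [inv_smul_smul, inv_smul_smul] at this

theorem main5 {Γ : SimpleGraph V} {G : Type u} [Group G] [MulAction G V] (hG : Geom Γ G)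
    {X : Type*} {T : SimpleGraph X} [MulAction G X] (hT : ThickAct T G) : pc Γ < pu Γ := by
  have hc := hT.tree.isConnected
  have hd := dist_smul' hc hT.adj
  have hcnt : ∃ B : ℕ, ∀ r, (tr_fin hc hT.locfin r 1).toFinset.card ≤ B := by
    obtain ⟨s, hs⟩ := hT.cof
    refine ⟨s.sup fun r => (tr_fin hc hT.locfin r 1).toFinset.card, fun r => ?_⟩
    obtain ⟨g, hg⟩ := hs r
    refine le_trans ?_ (Finset.le_sup (f := fun r => (tr_fin hc hT.locfin r 1).toFinset.card) hg)
    refine Finset.card_le_card_of_injOn (fun v => g • v) (fun v hv => ?_)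
      fun a _ b _ h => MulAction.injective g h
    have hv' : T.dist r v ≤ 1 := by simpa using hv
    have : T.dist (g • r) (g • v) ≤ 1 := by rwa [hd]
    simpa using this
  letI : TrS X :=
    { d := T.dist
      self := fun _ => SimpleGraph.dist_self
      comm := fun _ _ => SimpleGraph.dist_comm
      tri := fun _ _ _ => hc.dist_triangle
      eqz := fun _ _ h => hc.dist_eq_zero_iff.1 h
      uniq := fun _ _ _ _ h h' e => tr_uniq hT.tree h h' e
      pre := fun r v _ hj => tr_pre hc r v hj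
      trip := tr_trip hT.tree
      br := tr_branch hT.tree hT.deg
      fin := tr_fin hc hT.locfin
      cnt := hcnt }
  obtain ⟨o⟩ := hc.nonempty
  exact main4 hG (ρ := MulAction.toPermHom G X) ⟨hd, hT.cof, fun s t s' t' a b =>
    hT.irr s t s' t' (SimpleGraph.dist_eq_one_iff_adj.1 a) (SimpleGraph.dist_eq_one_iff_adj.1 b)⟩ o

end Vale.Agent.P165T
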