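import Vale.Agent.P165T.Fin
import Vale.Agent.P165T.Defs2

open Classical

namespace Vale.Agent.P165T

open Vale.Agent.P151 Vale.Agent.P165

universe u

variable {V : Type*}

lemma cut_le {X : Type*} {T : SimpleGraph X} (hT : T.IsTree) {v a s s' : X} (ha : T.Adj v a)
    (hs : T.dist s a < T.dist s v) (hs' : ¬ T.dist s' a < T.dist s' v) :
    T.dist v s ≤ T.dist s s' := by
  have hc := hT.isConnected
  obtain ⟨u, h1, h2, h3⟩ := tr_trip hT v s s'
  rcases Nat.eq_zero_or_pos (T.dist v u) with h | h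
  · omega
  obtain ⟨b, b1, b2⟩ := tr_pre hc v u (j := 1) h
  have e1 : T.dist v a = 1 := SimpleGraph.dist_eq_one_iff_adj.2 ha
  have t1 : T.dist v s ≤ T.dist v a + T.dist a s := hc.dist_triangle
  have t2 : T.dist v s ≤ T.dist v b + T.dist b s := hc.dist_triangle
  have t3 : T.dist b s ≤ T.dist b u + T.dist u s := hc.dist_triangle
  have t4 : T.dist b s' ≤ T.dist b u + T.dist u s' := hc.dist_triangle
  have c1 : T.dist s a = T.dist a s := SimpleGraph.dist_comm
  have c2 : T.dist s v = T.dist v s := SimpleGraph.dist_comm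
  have e : a = b := tr_uniq hT (r := v) (v := s) (by omega) (by omega) (by omega)
  subst e
  have c3 : T.dist s' a = T.dist a s' := SimpleGraph.dist_comm
  have c4 : T.dist s' v = T.dist v s' := SimpleGraph.dist_comm
  omega

lemma cof_of_irr {Γ : SimpleGraph V} {G : Type u} [Group G] [MulAction G V] (hG : Geom Γ G)
    {X : Type*} {T : SimpleGraph X} [MulAction G X] (hT : IrrAct T G) :
    ∃ s : Finset X, ∀ v, ∃ g : G, g • v ∈ s := by
  have hc := hT.tree.isConnected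
  have hd := dist_smul' hc hT.adj
  have hnb : ∀ v : X, ∃ a, T.Adj v a := fun v =>
    Set.nonempty_of_ncard_ne_zero (s := T.neighborSet v) (by have := hT.deg v; omega)
  obtain ⟨κ, hκ⟩ := exists_coord hG.free
  obtain ⟨o⟩ := hc.nonempty
  obtain ⟨x₀⟩ := hG.conn.nonempty
  let π : V → X := fun x => κ x • o
  have hπ : ∀ (g : G) x, π (g • x) = g • π x := fun g x => by simp only [π, hκ, mul_smul]
  obtain ⟨s, hs⟩ := hG.cof
  let L := s.sup fun i => (hG.locfin i).toFinset.sup fun j => T.dist (π i) (π j)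
  have hL : ∀ a b, Γ.Adj a b → T.dist (π a) (π b) ≤ L := by
    intro a b hab
    obtain ⟨g, hg⟩ := hs a
    rw [← hd g, ← hπ, ← hπ]
    refine le_trans ?_ (Finset.le_sup
      (f := fun i => (hG.locfin i).toFinset.sup fun j => T.dist (π i) (π j)) hg)
    exact Finset.le_sup (f := fun j => T.dist (π (g • a)) (π j))
      ((hG.locfin _).mem_toFinset.2 ((hG.adj g a b).2 hab))
  refine ⟨s.biUnion fun i => (tr_fin hc hT.locfin (π i) L).toFinset, fun v => ?_⟩
  obtain ⟨a, ha⟩ := hnb v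
  obtain ⟨b, hb⟩ := hnb (π x₀)
  have hb' : T.dist (π x₀) (π x₀) < T.dist (π x₀) b := by
    rw [SimpleGraph.dist_self, SimpleGraph.dist_eq_one_iff_adj.2 hb]; omega
  obtain ⟨g₁, h₁⟩ := hT.irr v a b (π x₀) ha hb.symm
  obtain ⟨g₂, h₂⟩ := hT.irr a v b (π x₀) ha.symm hb.symm
  have k₁ := h₁ _ hb'
  have k₂ := h₂ _ hb'
  rw [← hπ] at k₁ k₂
  obtain ⟨p⟩ := hG.conn.preconnected (g₁ • x₀) (g₂ • x₀)
  obtain ⟨d, -, d1, d2⟩ := p.exists_boundary_dart {x | T.dist (π x) a < T.dist (π x) v} k₁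
    (fun h => absurd h (not_lt.2 k₂.le))
  have k₃ := (cut_le hT.tree ha d1 d2).trans (hL _ _ d.adj)
  obtain ⟨g, hg⟩ := hs d.fst
  refine ⟨g, Finset.mem_biUnion.2 ⟨_, hg, ?_⟩⟩
  rw [Set.Finite.mem_toFinset]
  change T.dist (π (g • d.fst)) (g • v) ≤ L
  rwa [hπ, hd, SimpleGraph.dist_comm]

theorem main6 {Γ : SimpleGraph V} {G : Type u} [Group G] [MulAction G V] (hG : Geom Γ G)
    {X : Type*} {T : SimpleGraph X} [MulAction G X] (hT : IrrAct T G) : pc Γ < pu Γ :=
  main5 hG ⟨hT.tree, hT.locfin, hT.deg, hT.adj, cof_of_irr hG hT, hT.irr⟩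

end Vale.Agent.P165T
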