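import Vale.Agent.P165T.Fin2
import Vale.Agent.P165T.Defs3

open Classical

namespace Vale.Agent.P165T

open Vale.Agent.P151 Vale.Agent.P165

universe u

variable {V : Type*}

section
variable {TX : Type*} [TrS TX] {G : Type u} [Group G] {ρ : G →* Equiv.Perm TX}

lemma ne_dense (iso : ∀ g u v, dd (ρ g u) (ρ g v) = dd u v)
    (cof : ∃ s : Finset TX, ∀ v, ∃ g, ρ g v ∈ s) (x : TX) :
    ∃ R : ℕ, ∀ v, ∃ g, dd v (ρ g x) ≤ R := by
  obtain ⟨s, hs⟩ := cof
  refine ⟨s.sup fun i => dd i x, fun v => ?_⟩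
  obtain ⟨g, hg⟩ := hs v
  refine ⟨g⁻¹, ?_⟩
  rw [← iso g]
  simpa using Finset.le_sup (f := fun i => dd i x) hg

lemma ne_half_conv {s t a b x : TX} (h : dd s t = 1) (ha : a ∈ half s t) (hb : b ∈ half s t)
    (hx : b ∈ cone a x) : x ∈ half s t := by
  rw [geo_half h] at *
  exact CfgT_geo ha hb hx

theorem irr_of_noend (iso : ∀ g u v, dd (ρ g u) (ρ g v) = dd u v)
    (cof : ∃ s : Finset TX, ∀ v, ∃ g, ρ g v ∈ s)
    (noend : ∀ r : ℕ → TX, (∀ n, dd (r n) (r (n + 1)) = 1) → (∀ n, dd (r 0) (r n) = n) →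
      ∃ g : G, ¬ ∃ k l : ℕ, ∀ n, ρ g (r (n + k)) = r (n + l))
    (s t s' t' : TX) (h : dd s t = 1) (h' : dd s' t' = 1) :
    ∃ g, ∀ v ∈ half s' t', ρ g v ∈ half s t := by
  by_contra hcon
  have hh : ∀ (g : G) v, ρ g v ∈ half (ρ g s') (ρ g t') ↔ v ∈ half s' t' := fun g v => by
    change dd _ _ < dd _ _ ↔ dd _ _ < dd _ _
    rw [iso, iso]
  -- `K n`: common points of all translates near `s`
  let K : ℕ → Set TX := fun n => {x | ∀ g, dd s (ρ g t') ≤ n → x ∈ half (ρ g s') (ρ g t')}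
  obtain ⟨R, hR⟩ := ne_dense iso cof s
  have hK : ∀ n, ∃ x, x ∈ K n := by
    intro n
    obtain ⟨v, hv, dv⟩ := exists_far s t (R + n)
    obtain ⟨g₀, hg₀⟩ := hR v
    refine ⟨ρ g₀⁻¹ s, fun g hg => ?_⟩
    by_contra k
    have k1 : s ∉ half (ρ (g₀ * g) s') (ρ (g₀ * g) t') := fun k' => k (by
      have e : dd s (ρ (g₀ * g) t') < dd s (ρ (g₀ * g) s') := k'
      change dd (ρ g₀⁻¹ s) (ρ g t') < dd (ρ g₀⁻¹ s) (ρ g s')
      rw [← iso g₀, ← iso g₀ _ (ρ g s')]
      simpa using e)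
    have k2 : ρ (g₀ * g) t' ∈ cone s t := by
      have e1 : dd s v = dd s t + dd t v := hv
      refine CfgT_ball (ρ := R + n) hv (self_mem_cone s v) (by omega) ?_
      have e2 := dd_tri v (ρ g₀ s) (ρ (g₀ * g) t')
      rw [map_mul, Equiv.Perm.mul_apply, iso] at e2
      rw [map_mul, Equiv.Perm.mul_apply]
      omega
    refine hcon ⟨g₀ * g, fun x hx => ?_⟩
    have k3 := (hh (g₀ * g) x).2 hx
    rw [geo_half (by rw [iso]; exact h')] at k1 k3
    rw [← cone_reroot k1] at k3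
    rw [geo_half h]
    exact cone_trans k2 k3
  -- every vertex is missed by a nearby translate
  obtain ⟨c, hc⟩ : ∃ c : ℕ, ∀ v, ∃ g, dd v (ρ g t') ≤ c ∧ v ∉ half (ρ g s') (ρ g t') := by
    obtain ⟨S, hS⟩ := cof
    have h1 : ∀ i : TX, ∃ g, ρ g i ∉ half s' t' := by
      intro i
      obtain ⟨R', hR'⟩ := ne_dense iso ⟨S, hS⟩ i
      obtain ⟨v, hv, dv⟩ := exists_far t' s' R'
      obtain ⟨g, hg⟩ := hR' v
      have e1 : dd t' v = dd t' s' + dd s' v := hv
      have e2 : ρ g i ∈ cone t' s' :=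
        CfgT_ball (ρ := R') hv (self_mem_cone t' v) (by omega) hg
      refine ⟨g, fun k => ?_⟩
      have e3 : dd t' (ρ g i) = dd t' s' + dd s' (ρ g i) := e2
      have e4 : dd (ρ g i) t' < dd (ρ g i) s' := k
      have := dd_comm t' (ρ g i)
      have := dd_comm s' (ρ g i)
      omega
    choose f hf using h1
    refine ⟨S.sup fun i => dd (ρ (f i) i) t', fun v => ?_⟩
    obtain ⟨g, hg⟩ := hS v
    refine ⟨(f (ρ g v) * g)⁻¹, ?_, fun k => hf (ρ g v) ?_⟩
    · rw [← iso (f (ρ g v) * g)]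
      simpa using Finset.le_sup (f := fun i => dd (ρ (f i) i) t') hg
    · rw [← hh (f (ρ g v) * g)⁻¹]
      simpa using k
  have hfar : ∀ n x, x ∈ K (n + c) → n < dd s x := by
    intro n x hx
    by_contra k
    obtain ⟨g, h1, h2⟩ := hc x
    have := dd_tri s x (ρ g t')
    exact h2 (hx g (by omega))
  choose x hx using hK
  have hpre : ∀ n, ∃ y, dd s y = n ∧ x (n + c) ∈ cone s y := fun n =>
    exists_pre s _ (hfar n _ (hx _)).le
  choose r dr hr using hpre
  have hall : ∀ n y, y ∈ K (n + c) → y ∈ cone s (r n) := by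
    intro n y hy
    obtain ⟨m, m1, m2, m3⟩ := tripod s y (x (n + c))
    have e1 : dd s y = dd s m + dd m y := m1
    have e2 : dd s (x (n + c)) = dd s m + dd m (x (n + c)) := m2
    have e3 : x (n + c) ∈ cone y m := by
      change dd y (x (n + c)) = dd y m + dd m (x (n + c))
      have := dd_comm y m
      omega
    have e4 : m ∈ K (n + c) := fun g hg =>
      ne_half_conv (by rw [iso]; exact h') (hy g hg) (hx _ g hg) e3
    have e5 := hfar n m e4
    exact cone_trans (cone_nest (hr n) m2 (by rw [dr]; omega)) m1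
  have hmono : ∀ n n' y, n ≤ n' → y ∈ K n' → y ∈ K n := fun n n' y hn hy g hg =>
    hy g (hg.trans hn)
  have r0 : r 0 = s := (dd_eq_zero.1 (dr 0)).symm
  have hnest : ∀ n n', n ≤ n' → r n' ∈ cone s (r n) := fun n n' hn =>
    cone_nest (hall n _ (hmono _ _ _ (by omega) (hx (n' + c)))) (hr n') (by rw [dr, dr]; exact hn)
  obtain ⟨g, hg⟩ := noend r (fun n => by
    have e : dd s (r (n + 1)) = dd s (r n) + dd (r n) (r (n + 1)) := hnest n (n + 1) (by omega)
    rw [dr, dr] at e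
    omega) (fun n => by rw [r0, dr])
  refine hg ⟨dd (ρ g s) (r (dd s (ρ g s) + 1)), dd s (ρ g s) + 1, fun n => ?_⟩
  set D := dd s (ρ g s) with hD
  set a := dd (ρ g s) (r (D + 1)) with ha
  have hout : ∀ j, D + 1 ≤ j → ρ g s ∉ cone s (r j) := fun j hj k => by
    have e : dd s (ρ g s) = dd s (r j) + dd (r j) (ρ g s) := k
    rw [dr] at e
    omega
  have hy := hx (n + a + (D + 1) + c + D)
  set y := x (n + a + (D + 1) + c + D)
  have hgy : ρ g y ∈ K (n + (D + 1) + c) := by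
    intro g' hg'
    have e1 : dd s (ρ (g⁻¹ * g') t') ≤ n + a + (D + 1) + c + D := by
      rw [← iso g]
      have e2 := dd_tri (ρ g s) s (ρ g' t')
      have e3 := dd_comm (ρ g s) s
      have e5 : ρ g (ρ (g⁻¹ * g') t') = ρ g' t' := by simp
      rw [e5]
      omega
    have e4 : dd y (ρ (g⁻¹ * g') t') < dd y (ρ (g⁻¹ * g') s') := hy _ e1
    rw [← iso g, ← iso g y] at e4
    change dd (ρ g y) (ρ g' t') < dd (ρ g y) (ρ g' s')
    simpa using e4
  have k1 : y ∈ cone s (r (n + a)) := hall _ _ (hmono _ _ _ (by omega) hy)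
  have k2 : ρ g y ∈ cone (ρ g s) (ρ g (r (n + a))) := by
    change dd _ _ = dd _ _ + dd _ _
    rw [iso, iso, iso]
    exact k1
  have k3 : ρ g y ∈ cone (ρ g s) (r (n + (D + 1))) := by
    rw [cone_reroot (hout _ (by omega))]
    exact hall _ _ hgy
  refine cone_uniq k2 k3 ?_
  have k4 := cone_cut (hout (D + 1) le_rfl) (hnest (D + 1) (n + (D + 1)) (by omega))
  have k5 : dd s (r (n + (D + 1))) = dd s (r (D + 1)) + dd (r (D + 1)) (r (n + (D + 1))) :=
    hnest (D + 1) (n + (D + 1)) (by omega)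
  rw [dr, dr] at k5
  rw [iso, dr]
  omega

end

theorem main7 {Γ : SimpleGraph V} {G : Type u} [Group G] [MulAction G V] (hG : Geom Γ G)
    {X : Type*} {T : SimpleGraph X} [MulAction G X] (hT : EndFreeAct T G) : pc Γ < pu Γ := by
  have hc := hT.tree.isConnected
  have hd := dist_smul' hc hT.adj
  have hcnt : ∃ B : ℕ, ∀ r, (tr_fin hc hT.locfin r 1).toFinset.card ≤ B := by
    obtain ⟨s, hs⟩ := hT.cof
    refine ⟨s.sup fun r => (tr_fin hc hT.locfin r 1).toFinset.card, fun r => ?_⟩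
    obtain ⟨g, hg⟩ := hs r
    refine le_trans ?_ (Finset.le_sup (f := fun r => (tr_fin hc hT.locfin r 1).toFinset.card) hg)
    refine Finset.card_le_card_of_injOn (fun v => g • v) (fun v hv => ?_)
      fun a _ b _ h => MulAction.injective g h
    have hv' : T.dist r v ≤ 1 := by simpa using hv
    have : T.dist (g • r) (g • v) ≤ 1 := by rwa [hd]
    simpa using this
  letI : TrS X :=
    { d := T.dist
      self := fun _ => SimpleGraph.dist_self
      comm := fun _ _ => SimpleGraph.dist_comm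
      tri := fun _ _ _ => hc.dist_triangle
      eqz := fun _ _ h => hc.dist_eq_zero_iff.1 h
      uniq := fun _ _ _ _ h h' e => tr_uniq hT.tree h h' e
      pre := fun r v _ hj => tr_pre hc r v hj
      trip := tr_trip hT.tree
      br := tr_branch hT.tree hT.deg
      fin := tr_fin hc hT.locfin
      cnt := hcnt }
  obtain ⟨o⟩ := hc.nonempty
  exact main4 hG (ρ := MulAction.toPermHom G X) ⟨hd, hT.cof, irr_of_noend hd hT.cof
    fun r h1 h2 => hT.noend r (fun n => SimpleGraph.dist_eq_one_iff_adj.1 (h1 n)) h2⟩ o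

end Vale.Agent.P165T
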