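import Vale.Agent.P165T.Base

open Classical
open scoped ENNReal

namespace Vale.Agent.P165T

open Vale.Agent.P151 Vale.Agent.P165

universe u

section
variable {V : Type*} {TX : Type*} [TrS TX]

lemma self_mem_cone (r u : TX) : u ∈ cone r u := by simp [geo_mem, dd_self]
lemma cone_self (r : TX) : cone r r = Set.univ := by ext v; simp [geo_mem, dd_self]
lemma root_not_mem_cone {r u : TX} (h : r ≠ u) : r ∉ cone r u := by
  rw [geo_mem, dd_self]
  intro e
  exact h (dd_eq_zero.1 (by omega))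
lemma cone_cut {r u w w' : TX} (hw : w ∉ cone r u) (hw' : w' ∈ cone r u) :
    dd w w' = dd w u + dd u w' := by
  obtain ⟨m, h1, h2, h3⟩ := tripod r w w'
  by_cases hle : dd r u ≤ dd r m
  · exact absurd (cone_trans (cone_nest hw' h2 hle) h1) hw
  · have h4 := cone_nest h2 hw' (by omega)
    rw [geo_mem] at h1 h2 h4 hw'
    have := dd_tri w m u
    have := dd_tri w u w'
    have := dd_comm w m
    omega
lemma geo_pred {r u : TX} (h : r ≠ u) :
    ∃ q, dd r q + 1 = dd r u ∧ dd q u = 1 ∧ (∀ z ∈ cone r u, dd z q = dd z u + 1) ∧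
      ∀ z ∉ cone r u, dd z u = dd z q + 1 := by
  have h0 : dd r u ≠ 0 := fun e => h (dd_eq_zero.1 e)
  obtain ⟨q, hq, hu⟩ := exists_pre r u (j := dd r u - 1) (by omega)
  have hqu : dd q u = 1 := by rw [geo_mem] at hu; omega
  refine ⟨q, by omega, hqu, fun z hz => ?_, fun z hz => ?_⟩
  · have hq' : q ∉ cone r u := by rw [geo_mem]; omega
    have := cone_cut hq' hz
    have := dd_comm z q
    have := dd_comm z u
    omega
  · obtain ⟨m, h1, h2, h3⟩ := tripod r z u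
    by_cases hle : dd r u ≤ dd r m
    · exact absurd (cone_trans (cone_nest (self_mem_cone r u) h2 hle) h1) hz
    · have h4 := cone_nest h2 hu (by omega)
      rw [geo_mem] at h1 h2 h4
      have := dd_tri z m q
      have := dd_tri z q u
      have := dd_comm z m
      omega
lemma cone_reroot {r u w : TX} (hw : w ∉ cone r u) : cone w u = cone r u := by
  have h : r ≠ u := by
    rintro rfl
    exact hw (by rw [cone_self]; trivial)
  obtain ⟨q, -, -, -, h4⟩ := geo_pred h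
  ext v
  refine ⟨fun hv => ?_, fun hv => cone_cut hw hv⟩
  by_contra hv'
  rw [geo_mem] at hv
  have := h4 w hw
  have := h4 v hv'
  have := dd_tri w q v
  have := dd_comm v q
  have := dd_comm v u
  omega
lemma cone_half {r u : TX} (h : r ≠ u) :
    ∃ q, dd q u = 1 ∧ cone r u = half q u ∧ (cone r u)ᶜ = half u q := by
  obtain ⟨q, -, h2, h3, h4⟩ := geo_pred h
  refine ⟨q, h2, ?_, ?_⟩
  · ext z
    change _ ↔ dd z u < dd z q
    refine ⟨fun hz => by have := h3 z hz; omega, fun hz => ?_⟩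
    by_contra hz'
    have := h4 z hz'
    omega
  · ext z
    change _ ↔ dd z q < dd z u
    refine ⟨fun hz => by have := h4 z hz; omega, fun hz hz' => ?_⟩
    have := h3 z hz'
    omega
lemma geo_adj {m a : TX} (h : dd m a = 1) :
    (∀ z ∈ cone m a, dd z m = dd z a + 1) ∧ ∀ z ∉ cone m a, dd z a = dd z m + 1 := by
  have hne : m ≠ a := fun e => by rw [dd_eq_zero.2 e] at h; omega
  obtain ⟨q, h1, -, h3, h4⟩ := geo_pred hne
  have : m = q := dd_eq_zero.1 (by omega)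
  subst this
  exact ⟨h3, h4⟩
lemma cone_disjoint {m a m' a' : TX} (h : dd m a = 1) (h' : dd m' a' = 1) (hm : m ≠ m')
    (h1 : m' ∉ cone m a) (h2 : m ∉ cone m' a') : Disjoint (cone m a) (cone m' a') := by
  rw [Set.disjoint_left]
  intro v hv hv'
  have e1 := cone_cut h1 hv
  have e2 := cone_cut h2 hv'
  have e3 := (geo_adj h).2 m' h1
  have e4 := (geo_adj h').2 m h2
  have e5 : dd m m' ≠ 0 := fun e => hm (dd_eq_zero.1 e)
  rw [geo_mem] at hv hv'
  omega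

end

section
variable {V : Type*} {TX : Type*} [TrS TX]

lemma exists_far (r u : TX) (n : ℕ) :
    ∃ v, v ∈ cone r u ∧ dd r v = dd r u + n := by
  induction n with
  | zero => exact ⟨u, self_mem_cone r u, rfl⟩
  | succ n ih =>
    obtain ⟨v, h1, h2⟩ := ih
    obtain ⟨v', h3, h4, -⟩ := branch r v v
    exact ⟨v', cone_trans h1 h3, by omega⟩
lemma geo_half {s t : TX} (h : dd s t = 1) : half s t = cone s t := by
  obtain ⟨h1, h2⟩ := geo_adj h
  ext z
  change dd z t < dd z s ↔ _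
  refine ⟨fun hz => ?_, fun hz => by have := h1 z hz; omega⟩
  by_contra hz'
  have := h2 z hz'
  omega
/-- initial segments of `v` and side branches, whose cones are disjoint -/
lemma side (r v : TX) : ∃ pre sd : ℕ → TX,
    (∀ j ≤ dd r v, dd r (pre j) = j ∧ v ∈ cone r (pre j)) ∧
    (∀ j < dd r v, dd r (sd j) = j + 1 ∧ sd j ∈ cone r (pre j) ∧ dd (pre j) (sd j) = 1 ∧
      dd (pre j) (pre (j + 1)) = 1 ∧ pre (j + 1) ∈ cone r (pre j)) ∧
    (∀ i j, i ≤ j → j < dd r v → cone r (sd j) ⊆ cone r (pre i)) ∧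
    (∀ i j, i < j → j < dd r v → Disjoint (cone r (sd i)) (cone r (sd j))) := by
  have hp : ∀ j : ℕ, ∃ u, j ≤ dd r v → dd r u = j ∧ v ∈ cone r u := by
    intro j
    by_cases hj : j ≤ dd r v
    · obtain ⟨u, hu⟩ := exists_pre r v hj
      exact ⟨u, fun _ => hu⟩
    · exact ⟨r, fun h => absurd h hj⟩
  choose pre hpre using hp
  choose sd s1 s2 s3 using fun j => branch r (pre j) v
  have nest : ∀ i j, i ≤ j → j ≤ dd r v → pre j ∈ cone r (pre i) := fun i j hij hj =>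
    cone_nest (hpre i (hij.trans hj)).2 (hpre j hj).2 (by
      rw [(hpre i (hij.trans hj)).1, (hpre j hj).1]; exact hij)
  have sub : ∀ i j, i ≤ j → j < dd r v → cone r (sd j) ⊆ cone r (pre i) :=
    fun i j hij hj x hx => cone_trans (nest i j hij hj.le) (cone_trans (s1 j) hx)
  refine ⟨pre, sd, hpre, fun j hj => ?_, sub, fun i j hij hj => ?_⟩
  · have a1 := (hpre j hj.le).1
    have a2 := (hpre (j + 1) hj).1
    have a3 := s2 j
    have a4 := geo_mem.1 (s1 j)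
    have a5 := nest j (j + 1) (Nat.le_succ j) hj
    have a6 := geo_mem.1 a5
    exact ⟨by omega, s1 j, by omega, by omega, a5⟩
  · rw [Set.disjoint_left]
    intro x hx hx'
    have a1 := (hpre i (by omega)).1
    have a2 := hpre (i + 1) (by omega)
    have a3 := s2 i
    have e := cone_uniq hx (sub (i + 1) j hij hj hx') (by omega)
    exact s3 i (e ▸ a2.2)

end

section
variable {V : Type*} {TX : Type*} [TrS TX]

/-- two-point function inside the preimage of `R` -/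
noncomputable def tR (Γ : SimpleGraph V) (π : V → TX) (p : ℝ) (R : Set TX)
    (x y : V) : ℝ≥0∞ := tau (wU p (inE Γ (π ⁻¹' R))) x y

/-- the lower gluing bound -/
def Low (π : V → TX) (τ : Set TX → V → V → ℝ≥0∞) (K : ℕ → ℝ≥0∞) : Prop :=
  ∀ (d : ℕ) (r u r' u' : TX) (x x' : V) (R : Set TX), r ≠ u → r' ≠ u' →
    Disjoint R (cone r u) → dd (π x') u' ≤ d → π x' ∉ cone r' u' →
    (∑' w, ii (dd (π w) u ≤ d) * τ R x w) * (∑' y, τ (cone r' u')ᶜ x' y)
      ≤ K d * ∑' y, ii (π y ∈ cone r u) * τ Set.univ x y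

/-- the properties of the restricted two-point functions used in the tree argument -/
structure Ker (Γ : SimpleGraph V) (π : V → TX) (τ : Set TX → V → V → ℝ≥0∞)
    (L Δ : ℕ) (K : ℕ → ℝ≥0∞) : Prop where
  lip : ∀ a b, Γ.Adj a b → dd (π a) (π b) ≤ L
  deg : ∀ a, ∑' b, ii (Γ.Adj a b) ≤ Δ
  mono : ∀ R R' x y, R ⊆ R' → τ R x y ≤ τ R' x y
  supp : ∀ R x y, π x ∈ R → π y ∉ R → τ R x y = 0
  one : ∀ R x, 1 ≤ τ R x x
  up : ∀ R' R x y, R' ⊆ R → π x ∈ R' → τ R x y ≤ τ R' x y +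
    ∑' a, ∑' b, ii (Γ.Adj a b ∧ π a ∈ R' ∧ π b ∉ R' ∧ π b ∈ R) * (τ R' x a * τ R b y)
  low : Low π τ K
  fin : (⨆ x, ∑' y, τ Set.univ x y) ≠ ⊤

/-- expected number of points near `u` reached from `x` outside the cone behind `u` -/
noncomputable def ee (π : V → TX) (τ : Set TX → V → V → ℝ≥0∞) (L : ℕ)
    (x : V) (u : TX) : ℝ≥0∞ :=
  ∑' w, ii (dd (π w) u ≤ L) * τ (cone (π x) u)ᶜ x w

/-- expected number of points of the cluster of `x` in the cone behind `u` -/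
noncomputable def nu (π : V → TX) (τ : Set TX → V → V → ℝ≥0∞)
    (x : V) (u : TX) : ℝ≥0∞ :=
  ∑' y, ii (π y ∈ cone (π x) u) * τ Set.univ x y

end

section
variable {V : Type*} {TX : Type*} [TrS TX]

/-- expected number of returns near the apex inside a half-tree -/
noncomputable def mm (π : V → TX) (τ : Set TX → V → V → ℝ≥0∞) (D : ℕ) :
    ℝ≥0∞ :=
  ⨆ (q : TX) (u : TX) (w : V) (_ : dd q u = 1 ∧ dd (π w) u ≤ D),
    ∑' w', ii (dd (π w') u ≤ D) * τ (half q u) w w'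

/-- lower gluing with two radii -/
def Low2 (π : V → TX) (τ : Set TX → V → V → ℝ≥0∞) (d₁ d₂ : ℕ) (K : ℝ≥0∞) :
    Prop :=
  ∀ (r u r' u' : TX) (x x' : V) (R : Set TX), r ≠ u → r' ≠ u' →
    Disjoint R (cone r u) → dd (π x') u' ≤ d₂ → π x' ∉ cone r' u' →
    (∑' w, ii (dd (π w) u ≤ d₁) * τ R x w) * (∑' y, τ (cone r' u')ᶜ x' y)
      ≤ K * ∑' y, ii (π y ∈ cone r u) * τ Set.univ x y

/-- Harnack property -/
def HarP (Γ : SimpleGraph V) (π : V → TX) (p₀ : ℝ) (D₀ : ℕ) : Prop :=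
  ∀ D, ∃ C : ℝ≥0∞, C ≠ ⊤ ∧ ∀ p, p₀ ≤ p → p ≤ 1 → mm π (tR Γ π p) D ≤ C * mm π (tR Γ π p) D₀

section
variable {G : Type u} [Group G] [MulAction G V]

end

variable {G : Type u} [Group G] [MulAction G V]

end

section
variable {V : Type*} {TX : Type*} [TrS TX]

/-- equivariant projection to the tree -/
structure Tj (Γ : SimpleGraph V) {G : Type u} [Group G] [MulAction G V]
    (ρ : G →* Equiv.Perm TX) (π : V → TX) : Prop where
  geom : Geom Γ G
  act : TreeAct ρ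
  eqv : ∀ g v, π (g • v) = ρ g (π v)

/-- pointwise stabiliser of a list of tree vertices -/
def fx {G : Type u} [Group G] (ρ : G →* Equiv.Perm TX) (l : List TX) :
    Subgroup G where
  carrier := {g | ∀ t ∈ l, ρ g t = t}
  one_mem' := by simp
  mul_mem' := by
    intro a b h1 h2 t ht
    simp [h1 t ht, h2 t ht]
  inv_mem' := by
    intro a h1 t ht
    rw [map_inv, Equiv.Perm.inv_eq_iff_eq]; exact (h1 t ht).symm

lemma mem_fx {G : Type u} [Group G] {ρ : G →* Equiv.Perm TX} {l : List TX}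
    {g : G} : g ∈ fx ρ l ↔ ∀ t ∈ l, ρ g t = t := Iff.rfl

/-- correctly oriented copies at a level in the window -/
def Ori {G : Type u} [Group G] (ρ : G →* Equiv.Perm TX) (q u a t : TX)
    (ℓ ℓ' : ℕ) (g : G) : Prop :=
  ρ g q ∈ cone u t ∧ ℓ ≤ dd u (ρ g q) ∧ dd u (ρ g q) ≤ ℓ' ∧ ρ g u ∈ cone u (ρ g q) ∧
    ρ g a ∈ cone u (ρ g q)

variable {G : Type u} [Group G] [MulAction G V]

end

section
variable {V : Type*} {TX : Type*} [TrS TX]

variable {Γ : SimpleGraph V} {G : Type u} [Group G] [MulAction G V]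

lemma tR_smul (hG : Geom Γ G) {ρ : G →* Equiv.Perm TX} {π : V → TX}
    (hπ : ∀ g v, π (g • v) = ρ g (π v)) (p : ℝ) (R : Set TX) (g : G) (x y : V) :
    tR Γ π p R (g • x) (g • y) = tR Γ π p {v | ρ g v ∈ R} x y := by
  unfold tR
  rw [tau_smul hG]
  congr 3
  ext v
  simp [hπ]
end

section
variable {V : Type*} {TX : Type*} [TrS TX]

variable {Γ : SimpleGraph V} {G : Type u} [Group G] [MulAction G V]

lemma KerP_supp (π : V → TX) (p : ℝ) (R : Set TX) (x y : V)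
    (hx : π x ∈ R) (hy : π y ∉ R) : tR Γ π p R x y = 0 :=
  tau_zero (S := π ⁻¹' R) hx hy fun _ _ _ hb => if_neg fun h => hb (mk_mem_inE.1 h).2.2

lemma tR_up (π : V → TX) {p : ℝ} (h0 : 0 ≤ p) (h1 : p ≤ 1)
    (R' R : Set TX) (x y : V) (h : R' ⊆ R) (hx : π x ∈ R') :
    tR Γ π p R x y ≤ tR Γ π p R' x y + ∑' a, ∑' b,
      ii (Γ.Adj a b ∧ π a ∈ R' ∧ π b ∉ R' ∧ π b ∈ R) * (tR Γ π p R' x a * tR Γ π p R b y) := by
  have hsub : inE Γ (π ⁻¹' R') ⊆ inE Γ (π ⁻¹' R) := inE_mono (Set.preimage_mono h)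
  refine (sprinkle (w := wU p (inE Γ (π ⁻¹' R'))) (w' := wU p (inE Γ (π ⁻¹' R)))
    (η := wU p (inE Γ (π ⁻¹' R) \ inE Γ (π ⁻¹' R'))) (wU_ok h0 h1 _) (wU_ok h0 h1 _)
    (fun e => ?_) x y).trans (add_le_add le_rfl ?_)
  · by_cases h2 : e ∈ inE Γ (π ⁻¹' R')
    · simp [wU, h2, hsub h2]
    · by_cases h3 : e ∈ inE Γ (π ⁻¹' R) <;> simp [wU, h2, h3]
  · refine ENNReal.tsum_le_tsum fun a => ENNReal.tsum_le_tsum fun b => ?_
    change tR Γ π p R' x a * (_ * tR Γ π p R b y) ≤ _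
    by_cases ha : π a ∈ R'
    · by_cases he : s(a, b) ∈ inE Γ (π ⁻¹' R) \ inE Γ (π ⁻¹' R')
      · obtain ⟨k1, -, k3⟩ := mk_mem_inE.1 he.1
        rw [ii_true ⟨k1, ha, fun hb => he.2 (mk_mem_inE.2 ⟨k1, ha, hb⟩), k3⟩, one_mul]
        refine mul_le_mul_right (mul_le_of_le_one_left' ?_) _
        exact ENNReal.ofReal_le_one.2 (wU_ok h0 h1 _ _).2
      · rw [wU, if_neg he, ENNReal.ofReal_zero, zero_mul, mul_zero]
        exact zero_le
    · rw [KerP_supp π p R' x a hx ha, zero_mul]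
      exact zero_le

end

section
variable {V : Type*} {TX : Type*} [TrS TX]

variable {Γ : SimpleGraph V} {π : V → TX} {τ : Set TX → V → V → ℝ≥0∞}
  {L Δ : ℕ} {K : ℕ → ℝ≥0∞}

/-- entering a cone -/
lemma Ker.cross (h : Ker Γ π τ L Δ K) {x : V} {u : TX} (hu : π x ≠ u)
    {R : Set TX} (hR : (cone (π x) u)ᶜ ⊆ R) (f : V → ℝ≥0∞) {M : ℝ≥0∞}
    (hM : ∀ b, π b ∈ cone (π x) u → π b ∈ R → dd u (π b) ≤ L → ∑' y, f y * τ R b y ≤ M) :
    ∑' y, f y * τ R x y ≤ ∑' y, f y * τ (cone (π x) u)ᶜ x y + Δ * ee π τ L x u * M := by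
  have hx : π x ∈ (cone (π x) u)ᶜ := root_not_mem_cone hu
  refine (ENNReal.tsum_le_tsum fun y => mul_le_mul_right (h.up _ R x y hR hx) (f y)).trans ?_
  simp only [mul_add]
  rw [ENNReal.tsum_add]
  refine add_le_add le_rfl ?_
  simp only [← ENNReal.tsum_mul_left]
  rw [ENNReal.tsum_comm]
  have key : ∀ a, ∑' y, ∑' b, f y * (ii (Γ.Adj a b ∧ π a ∈ (cone (π x) u)ᶜ ∧
      π b ∉ (cone (π x) u)ᶜ ∧ π b ∈ R) * (τ (cone (π x) u)ᶜ x a * τ R b y)) ≤
      Δ * (ii (dd (π a) u ≤ L) * τ (cone (π x) u)ᶜ x a) * M := by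
    intro a
    rw [ENNReal.tsum_comm]
    have k2 : ∀ b, ∑' y, f y * (ii (Γ.Adj a b ∧ π a ∈ (cone (π x) u)ᶜ ∧
        π b ∉ (cone (π x) u)ᶜ ∧ π b ∈ R) * (τ (cone (π x) u)ᶜ x a * τ R b y)) ≤
        ii (Γ.Adj a b) * ((ii (dd (π a) u ≤ L) * τ (cone (π x) u)ᶜ x a) * M) := by
      intro b
      by_cases hc : Γ.Adj a b ∧ π a ∈ (cone (π x) u)ᶜ ∧ π b ∉ (cone (π x) u)ᶜ ∧ π b ∈ R
      · obtain ⟨c1, c2, c3, c4⟩ := id hc
        have c3' : π b ∈ cone (π x) u := not_not.1 c3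
        have e := cone_cut c2 c3'
        have l := h.lip a b c1
        rw [ii_true hc, ii_true c1, ii_true (show dd (π a) u ≤ L by omega)]
        simp only [one_mul, mul_left_comm (f _)]
        rw [ENNReal.tsum_mul_left]
        exact mul_le_mul_right (hM b c3' c4 (by omega)) _
      · rw [ii_false hc]; simp
    refine (ENNReal.tsum_le_tsum k2).trans ?_
    rw [ENNReal.tsum_mul_right, mul_assoc (Δ : ℝ≥0∞)]
    exact mul_le_mul_left (h.deg a) _
  refine (ENNReal.tsum_le_tsum key).trans ?_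
  rw [ENNReal.tsum_mul_right, ENNReal.tsum_mul_left, ee]

/-- disjoint cones inside a cone -/
lemma nu_sum {ι : Type*} (s : Finset ι) (x : V) (u : TX) (c : ι → TX)
    (h1 : ∀ i ∈ s, cone (π x) (c i) ⊆ cone (π x) u)
    (h2 : ∀ i ∈ s, ∀ j ∈ s, i ≠ j → Disjoint (cone (π x) (c i)) (cone (π x) (c j))) :
    ∑ i ∈ s, nu π τ x (c i) ≤ nu π τ x u := by
  unfold nu
  rw [← Summable.tsum_finsetSum fun _ _ => ENNReal.summable]
  refine ENNReal.tsum_le_tsum fun y => ?_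
  rw [← Finset.sum_mul]
  refine mul_le_mul_left (absA_sum s (fun i hi j hj a b => ?_) fun i hi a => h1 i hi a) _
  by_contra hne
  exact Set.disjoint_left.1 (h2 i hi j hj hne) a b

lemma nu_sphere (x : V) (u : TX) (n : ℕ) :
    ∑' v, ii (v ∈ cone (π x) u ∧ dd (π x) v = n) * nu π τ x v ≤ nu π τ x u := by
  unfold nu
  simp only [← ENNReal.tsum_mul_left]
  rw [ENNReal.tsum_comm]
  refine ENNReal.tsum_le_tsum fun y => ?_
  simp only [← mul_assoc, ← ii_and]
  rw [ENNReal.tsum_mul_right]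
  exact mul_le_mul_left (absA_tsum (fun v v' a b => cone_uniq a.2 b.2 (a.1.2.trans b.1.2.symm))
    fun v a => cone_trans a.1.1 a.2) _

lemma nu_le (x : V) (u : TX) : nu π τ x u ≤ ⨆ x, ∑' y, τ Set.univ x y := by
  refine le_trans ?_ (le_iSup (fun x => ∑' y, τ Set.univ x y) x)
  refine ENNReal.tsum_le_tsum fun y => ?_
  exact (mul_le_mul_left (ii_le_one _) _).trans (one_mul _).le

lemma Ker.nu_le_ee (h : Ker Γ π τ L Δ K) {x : V} {u : TX} (hu : π x ≠ u) :
    nu π τ x u ≤ Δ * ee π τ L x u * ⨆ x, ∑' y, τ Set.univ x y := by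
  have := h.cross hu (R := Set.univ) (Set.subset_univ _) (fun y => ii (π y ∈ cone (π x) u))
    (M := ⨆ x, ∑' y, τ Set.univ x y) fun b _ _ _ => by
      refine le_trans ?_ (le_iSup (fun x => ∑' y, τ Set.univ x y) b)
      exact ENNReal.tsum_le_tsum fun y => (mul_le_mul_left (ii_le_one _) _).trans (one_mul _).le
  have z : ∀ y, ii (π y ∈ cone (π x) u) * τ (cone (π x) u)ᶜ x y = 0 := fun y => by
    by_cases hy : π y ∈ cone (π x) u
    · rw [h.supp _ x y (root_not_mem_cone hu) (not_not.2 hy), mul_zero]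
    · rw [ii_false hy, zero_mul]
  simp only [z, tsum_zero, zero_add] at this
  exact this

end

section
variable {V : Type*} {TX : Type*} [TrS TX]

lemma Kap_ne {r u : TX} {j : ℕ} (h : dd r u = j + 1) : r ≠ u := fun e => by
  rw [dd_eq_zero.2 e] at h
  omega

section
variable {Γ : SimpleGraph V} {π : V → TX} {τ : Set TX → V → V → ℝ≥0∞}
  {L Δ : ℕ} {K : ℕ → ℝ≥0∞}

lemma Kap_low (h : Ker Γ π τ L Δ K) {x b : V} {p s r' u' : TX} (h1 : π x ≠ s)
    (h2 : s ∈ cone (π x) p) (h3 : dd p s = 1) (h4 : r' ≠ u') (h5 : dd (π b) u' ≤ L + 1)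
    (h6 : π b ∉ cone r' u') :
    ee π τ L x p * ∑' y, τ (cone r' u')ᶜ b y ≤ K (L + 1) * nu π τ x s := by
  refine le_trans ?_ (h.low (L + 1) (π x) s r' u' x b (cone (π x) p)ᶜ h1 h4
    (Set.disjoint_left.2 fun v hv hv' => hv (cone_trans h2 hv')) h5 h6)
  refine mul_le_mul_left (ENNReal.tsum_le_tsum fun w => mul_le_mul_left (ii_mono fun hw => ?_) _) _
  have := dd_tri (π w) p s
  omega

lemma Kap_step (h : Ker Γ π τ L Δ K) {x : V} {p p' s : TX} (h0 : π x ≠ p) (h1 : π x ≠ s)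
    (h2 : s ∈ cone (π x) p) (h3 : dd p s = 1) (h4 : π x ≠ p') (h5 : dd p p' = 1)
    (h6 : p' ∈ cone (π x) p) :
    ∑' y, τ (cone (π x) p')ᶜ x y ≤ ∑' y, τ (cone (π x) p)ᶜ x y + Δ * (K (L + 1) * nu π τ x s) := by
  have hc := h.cross h0 (R := (cone (π x) p')ᶜ) (fun v hv hv' => hv (cone_trans h6 hv'))
    (fun _ => 1) (M := ⨆ b, ⨆ (_ : π b ∉ cone (π x) p' ∧ dd p (π b) ≤ L),
      ∑' y, τ (cone (π x) p')ᶜ b y) fun b _ hb hb' => by
        simp only [one_mul]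
        exact le_iSup₂_of_le b ⟨hb, hb'⟩ le_rfl
  simp only [one_mul] at hc
  refine hc.trans (add_le_add le_rfl ?_)
  rw [mul_assoc]
  refine mul_le_mul_right ?_ _
  rw [ENNReal.mul_iSup]
  refine iSup_le fun b => ?_
  rw [ENNReal.mul_iSup]
  refine iSup_le fun hb => Kap_low h h1 h2 h3 h4 ?_ hb.1
  have := dd_tri (π b) p p'
  have := dd_comm (π b) p
  have := hb.2
  omega

lemma Kap_main (h : Ker Γ π τ L Δ K) (hK : K (L + 1) ≠ ⊤) {J : ℕ} (hJ0 : 0 < J)
    (hJ : 4 * (Δ * K (L + 1)) ≤ J) (x : V) : ∃ u, π x ≠ u ∧ dd (π x) u ≤ J ∧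
      2 * ∑' y, τ Set.univ x y ≤ 4 * ∑' y, τ (cone (π x) u)ᶜ x y := by
  set χ := ∑' y, τ Set.univ x y with hχ
  set χs := ⨆ x, ∑' y, τ Set.univ x y with hχs
  have hle : χ ≤ χs := le_iSup (fun x => ∑' y, τ Set.univ x y) x
  have hfin : χ ≠ ⊤ := ne_top_of_le_ne_top h.fin hle
  have hnu : ∀ u, nu π τ x u ≤ χ := fun u => ENNReal.tsum_le_tsum fun y =>
    mul_le_of_le_one_left' (ii_le_one _)
  obtain ⟨v, -, hv⟩ := exists_far (π x) (π x) J
  rw [dd_self, zero_add] at hv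
  obtain ⟨pre, sd, -, s2, -, s4⟩ := side (π x) v
  rw [hv] at s2 s4
  have hdis : ∀ (c : ℕ → TX) (a n : ℕ), (∀ i j, i < j → j < a + n →
      Disjoint (cone (π x) (c i)) (cone (π x) (c j))) → ∀ i ∈ Finset.range n,
      ∀ j ∈ Finset.range n, i ≠ j →
      Disjoint (cone (π x) (c (a + i))) (cone (π x) (c (a + j))) := fun c a n hc i hi j hj hij => by
    have := Finset.mem_range.1 hi
    have := Finset.mem_range.1 hj
    rcases lt_or_gt_of_ne hij with h1 | h1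
    · exact hc _ _ (by omega) (by omega)
    · exact (hc _ _ (by omega) (by omega)).symm
  obtain ⟨j0, hj0, hj0'⟩ := Kap_pigeon hJ0 (fun j => nu π τ x (sd (0 + j)))
    ((nu_sum (Finset.range J) x (π x) (fun j => sd (0 + j))
      (fun i _ => by rw [cone_self]; exact Set.subset_univ _)
      (hdis sd 0 J (by rwa [zero_add]))).trans (hnu _))
  rw [zero_add] at hj0'
  have hu := (s2 j0 hj0).1
  refine ⟨sd j0, Kap_ne hu, by omega, ?_⟩
  generalize sd j0 = u at hu hj0'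
  obtain ⟨n, hn⟩ := ENNReal.exists_nat_gt (r := 4 * (Δ * K (L + 1) * χs))
    (ENNReal.mul_ne_top (by simp) (ENNReal.mul_ne_top (ENNReal.mul_ne_top (by simp) hK) h.fin))
  have hn0 : 0 < n := by
    have : (0 : ℝ≥0∞) < n := lt_of_le_of_lt zero_le hn
    exact_mod_cast this
  obtain ⟨v', hv1, hv2⟩ := exists_far (π x) u n
  obtain ⟨pr, sb, t1, t2, t3, t4⟩ := side (π x) v'
  rw [hv2, hu] at t1 t2 t3 t4
  have hpu : pr (j0 + 1) = u :=
    cone_uniq (t1 (j0 + 1) (by omega)).2 hv1 ((t1 (j0 + 1) (by omega)).1.trans hu.symm)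
  have hsum : ∀ m ≤ n, ∑ j ∈ Finset.range m, nu π τ x (sb (j0 + 1 + j)) ≤ nu π τ x u :=
    fun m hm => nu_sum (Finset.range m) x u (fun j => sb (j0 + 1 + j))
      (fun i hi => by
        have := Finset.mem_range.1 hi
        rw [← hpu]
        exact t3 _ _ (by omega) (by omega))
      (hdis sb (j0 + 1) m fun i j h1 h2 => t4 i j h1 (by omega))
  have hind : ∀ m ≤ n, ∑' y, τ (cone (π x) (pr (j0 + 1 + m)))ᶜ x y ≤
      ∑' y, τ (cone (π x) u)ᶜ x y +
        Δ * K (L + 1) * ∑ j ∈ Finset.range m, nu π τ x (sb (j0 + 1 + j)) := by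
    intro m
    induction m with
    | zero => intro _; rw [add_zero, hpu]; exact le_self_add
    | succ m ih =>
      intro hm
      obtain ⟨a1, a2, a3, a4, a5⟩ := t2 (j0 + 1 + m) (by omega)
      have h0 : dd (π x) (pr (j0 + 1 + m)) = j0 + m + 1 := by
        rw [(t1 _ (by omega)).1]; omega
      refine (Kap_step h (Kap_ne h0) (Kap_ne a1) a2 a3 (Kap_ne (t1 (j0 + 1 + m + 1) (by omega)).1)
        a4 a5).trans ?_
      rw [Finset.sum_range_succ, mul_add, ← add_assoc, ← mul_assoc]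
      exact add_le_add (ih (by omega)) le_rfl
  obtain ⟨m, hm, hm'⟩ := Kap_pigeon hn0 (fun j => nu π τ x (sb (j0 + 1 + j)))
    ((hsum n le_rfl).trans (hnu u))
  obtain ⟨a1, a2, a3, -, -⟩ := t2 (j0 + 1 + m) (by omega)
  have h0 : dd (π x) (pr (j0 + 1 + m)) = j0 + m + 1 := by
    rw [(t1 _ (by omega)).1]; omega
  obtain ⟨w, -, hw⟩ := exists_far (π x) (π x) 1
  rw [dd_self] at hw
  have he : ee π τ L x (pr (j0 + 1 + m)) ≤ K (L + 1) * nu π τ x (sb (j0 + 1 + m)) := by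
    refine le_trans ?_ (Kap_low h (b := x) (Kap_ne a1) a2 a3 (Kap_ne hw) (by omega)
      (root_not_mem_cone (Kap_ne hw)))
    exact le_mul_of_one_le_right' ((h.one _ x).trans (ENNReal.le_tsum x))
  have hc := h.cross (Kap_ne h0) (R := Set.univ) (Set.subset_univ _) (fun _ => 1) (M := χs)
    fun b _ _ _ => by
      simp only [one_mul]
      exact le_iSup (fun x => ∑' y, τ Set.univ x y) b
  simp only [one_mul] at hc
  have q1 : 4 * (Δ * K (L + 1) * ∑ j ∈ Finset.range m, nu π τ x (sb (j0 + 1 + j))) ≤ χ := by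
    rw [← mul_assoc]
    exact (mul_le_mul' hJ (hsum m hm.le)).trans hj0'
  have q2 : 4 * (Δ * ee π τ L x (pr (j0 + 1 + m)) * χs) ≤ χ := by
    calc _ ≤ 4 * (Δ * (K (L + 1) * nu π τ x (sb (j0 + 1 + m))) * χs) := by gcongr
      _ = 4 * (Δ * K (L + 1) * χs) * nu π τ x (sb (j0 + 1 + m)) := by ring
      _ ≤ n * nu π τ x (sb (j0 + 1 + m)) := by gcongr
      _ ≤ χ := hm'
  have h4 : 2 * χ + 2 * χ ≤ 4 * ∑' y, τ (cone (π x) u)ᶜ x y + 2 * χ := by
    calc 2 * χ + 2 * χ = 4 * χ := by ring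
      _ ≤ 4 * (∑' y, τ (cone (π x) u)ᶜ x y +
          Δ * K (L + 1) * ∑ j ∈ Finset.range m, nu π τ x (sb (j0 + 1 + j)) +
          Δ * ee π τ L x (pr (j0 + 1 + m)) * χs) :=
          mul_le_mul_right (hc.trans (add_le_add (hind m hm.le) le_rfl)) _
      _ ≤ 4 * ∑' y, τ (cone (π x) u)ᶜ x y + χ + χ := by
          rw [mul_add, mul_add]
          exact add_le_add (add_le_add le_rfl q1) q2
      _ = _ := by ring
  exact (ENNReal.add_le_add_iff_right (ENNReal.mul_ne_top (by simp) hfin)).1 h4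

end

/-- half-trees carry a positive fraction of the susceptibility -/
theorem kap (Γ : SimpleGraph V) (π : V → TX) (L Δ : ℕ) (K : ℕ → ℝ≥0∞)
    (hK : ∀ d, K d ≠ ⊤) : ∃ J : ℕ, ∀ τ : Set TX → V → V → ℝ≥0∞, Ker Γ π τ L Δ K →
      ∀ d, J ≤ d → ∀ (x : V) (u : TX) (R : Set TX), π x ≠ u →
        Disjoint R (cone (π x) u) →
        (∑' w, ii (dd (π w) u ≤ d) * τ R x w) * (⨆ x, ∑' y, τ Set.univ x y)
          ≤ 4 * K d * nu π τ x u := by
  obtain ⟨J, hJ⟩ := ENNReal.exists_nat_gt (r := 4 * (Δ * K (L + 1)))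
    (ENNReal.mul_ne_top (by simp) (ENNReal.mul_ne_top (by simp) (hK _)))
  have hJ0 : 0 < J := by
    have : (0 : ℝ≥0∞) < J := lt_of_le_of_lt zero_le hJ
    exact_mod_cast this
  refine ⟨J, fun τ h d hd x u R hx hR => ?_⟩
  have h1 : (1 : ℝ≥0∞) ≤ ⨆ x, ∑' y, τ Set.univ x y :=
    le_iSup_of_le x ((h.one _ x).trans (ENNReal.le_tsum x))
  obtain ⟨x', hx'⟩ := lt_iSup_iff.1 (ENNReal.half_lt_self (zero_lt_one.trans_le h1).ne' h.fin)
  obtain ⟨u', h2, h3, h4⟩ := Kap_main h (hK _) hJ0 hJ.le x'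
  have h5 : (⨆ x, ∑' y, τ Set.univ x y) ≤ 4 * ∑' y, τ (cone (π x') u')ᶜ x' y := by
    refine le_trans ?_ h4
    rw [← ENNReal.add_halves (⨆ x, ∑' y, τ Set.univ x y), two_mul]
    exact add_le_add hx'.le hx'.le
  have h6 := h.low d (π x) u (π x') u' x x' R hx h2 hR (h3.trans hd) (root_not_mem_cone h2)
  calc _ ≤ (∑' w, ii (dd (π w) u ≤ d) * τ R x w) * (4 * ∑' y, τ (cone (π x') u')ᶜ x' y) :=
        mul_le_mul_right h5 _
    _ = 4 * ((∑' w, ii (dd (π w) u ≤ d) * τ R x w) * ∑' y, τ (cone (π x') u')ᶜ x' y) := by ring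
    _ ≤ 4 * (K d * nu π τ x u) := mul_le_mul_right h6 _
    _ = _ := by ring

end

section
variable {V : Type*} {TX : Type*} [TrS TX]

lemma step_Dec {Γ : SimpleGraph V} {π : V → TX} {L Δ : ℕ}
    {K : ℕ → ℝ≥0∞} {τ : Set TX → V → V → ℝ≥0∞} (h : Ker Γ π τ L Δ K) {k : ℝ≥0∞}
    {J' : ℕ} (hJ1 : 1 ≤ J') (hJ2 : 2 * Δ * k ≤ J')
    (hA : ∀ x u u₂, π x ≠ u → u₂ ∈ cone (π x) u → dd u u₂ ≤ 1 →
      ee π τ L x u * (⨆ x, ∑' y, τ Set.univ x y) ≤ k * nu π τ x u₂)
    (hχ : ∀ (_ : V) (a b : ℝ≥0∞), a * (⨆ x, ∑' y, τ Set.univ x y) ≤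
      b * (⨆ x, ∑' y, τ Set.univ x y) → a ≤ b) (i : ℕ) :
    ∀ x v, π x ≠ v → i * (J' + L + 1) ≤ dd (π x) v → ee π τ L x v ≤ k * 2⁻¹ ^ i := by
  induction i with
  | zero =>
    intro x v hv _
    rw [pow_zero, mul_one]
    refine hχ x _ _ ((hA x v v hv (self_mem_cone _ _) (by rw [dd_self]; omega)).trans ?_)
    gcongr
    exact nu_le x v
  | succ i ih =>
    intro x v hv hd
    rw [Nat.succ_mul] at hd
    obtain ⟨pre, sd, s1, s2, s3, s4⟩ := side (π x) v
    have hne : ∀ j ∈ Finset.Icc 1 J', π x ≠ pre j := by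
      intro j hj e
      rw [Finset.mem_Icc] at hj
      have := (s1 j (by omega)).1
      rw [← e, dd_self] at this
      omega
    have hsum : ∑ j ∈ Finset.Icc 1 J', ee π τ L x (pre j) ≤ k := by
      refine hχ x _ _ ?_
      rw [Finset.sum_mul]
      calc _ ≤ ∑ j ∈ Finset.Icc 1 J', k * nu π τ x (sd j) := Finset.sum_le_sum fun j hj => by
            have hj' := Finset.mem_Icc.mp hj
            obtain ⟨-, a2, a3, -⟩ := s2 j (by omega)
            exact hA x _ _ (hne j hj) a2 a3.le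
        _ ≤ k * nu π τ x (π x) := by
            rw [← Finset.mul_sum]
            gcongr
            refine nu_sum _ x _ sd (fun j _ => by rw [cone_self]; exact Set.subset_univ _) ?_
            intro a ha b hb hab
            rw [Finset.mem_Icc] at ha hb
            rcases lt_or_gt_of_ne hab with hab | hab
            · exact s4 a b hab (by omega)
            · exact (s4 b a hab (by omega)).symm
        _ ≤ _ := by
            gcongr
            exact nu_le x _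
    obtain ⟨j, hj, hmin⟩ := Finset.exists_min_image (Finset.Icc 1 J') (fun j => ee π τ L x (pre j))
      ⟨1, Finset.mem_Icc.mpr ⟨le_rfl, hJ1⟩⟩
    have h1 : (J' : ℝ≥0∞) * ee π τ L x (pre j) ≤ k := by
      refine le_trans ?_ hsum
      have := Finset.card_nsmul_le_sum _ _ _ hmin
      simpa using this
    have h2 : (Δ : ℝ≥0∞) * ee π τ L x (pre j) ≤ 2⁻¹ := by
      have h3 : (J' : ℝ≥0∞) * (2 * (Δ * ee π τ L x (pre j))) ≤ J' * 1 := by
        calc _ = 2 * Δ * ((J' : ℝ≥0∞) * ee π τ L x (pre j)) := by ring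
          _ ≤ 2 * Δ * k := by gcongr
          _ ≤ _ := by rwa [mul_one]
      have h4 := (ENNReal.mul_le_mul_iff_right (by simp; omega) (by simp)).mp h3
      rw [ENNReal.le_inv_iff_mul_le, mul_comm]
      exact h4
    have hj' := Finset.mem_Icc.mp hj
    obtain ⟨b1, b2⟩ := s1 j (by omega)
    have b3 : dd (π x) v = dd (π x) (pre j) + dd (pre j) v := b2
    have hc := h.cross (hne j hj) (R := (cone (π x) v)ᶜ)
      (Set.compl_subset_compl.mpr fun w hw => cone_trans b2 hw) (fun w => ii (dd (π w) v ≤ L))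
      (M := k * 2⁻¹ ^ i) (fun b _ hb2 hb3 => by
        have e := cone_reroot hb2
        have := ih b v (fun e' => hb2 (e' ▸ self_mem_cone _ _)) (by
          have := dd_tri (pre j) (π b) v
          omega)
        rw [ee, e] at this
        exact this)
    have h0 : ∑' y, ii (dd (π y) v ≤ L) * τ (cone (π x) (pre j))ᶜ x y = 0 := by
      rw [ENNReal.tsum_eq_zero]
      intro y
      by_cases hy : π y ∈ cone (π x) (pre j)
      · rw [h.supp (cone (π x) (pre j))ᶜ x y (root_not_mem_cone (hne j hj)) (fun h' => h' hy), mul_zero]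
      · have := cone_cut hy b2
        rw [ii_false (by omega), zero_mul]
    rw [h0, zero_add] at hc
    calc ee π τ L x v ≤ _ := hc
      _ ≤ 2⁻¹ * (k * 2⁻¹ ^ i) := by gcongr
      _ = _ := by rw [pow_succ]; ring

/-- exponential decay of the entrance numbers -/
theorem dec (Γ : SimpleGraph V) (π : V → TX) (L Δ : ℕ) (K : ℕ → ℝ≥0∞)
    (hK : ∀ d, K d ≠ ⊤) : ∃ C σ : ℝ≥0∞, C ≠ ⊤ ∧ σ ≠ 0 ∧ σ < 1 ∧
      ∀ τ : Set TX → V → V → ℝ≥0∞, Ker Γ π τ L Δ K →
        (∀ x u, π x ≠ u → ee π τ L x u ≤ C * σ ^ dd (π x) u) ∧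
        ∀ x u n, 1 ≤ n → ∑' v, ii (v ∈ cone (π x) u ∧ dd (π x) v = n) * ee π τ L x v
          ≤ C * σ ^ dd (π x) u := by
  obtain ⟨J, hJ⟩ := kap Γ π L Δ K hK
  set k : ℝ≥0∞ := 4 * K (max J (L + 1)) with hk
  have hkt : k ≠ ⊤ := ENNReal.mul_ne_top (by simp) (hK _)
  obtain ⟨J0, hJ0⟩ := ENNReal.exists_nat_gt (r := 2 * Δ * k)
    (ENNReal.mul_ne_top (ENNReal.mul_ne_top (by simp) (by simp)) hkt)
  have hJ2 : 2 * Δ * k ≤ ((J0 + 1 : ℕ) : ℝ≥0∞) := hJ0.le.trans (by exact_mod_cast Nat.le_succ _)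
  set P : ℕ := J0 + 1 + L + 1 with hP
  have hP0 : P ≠ 0 := by omega
  set σ : ℝ≥0∞ := (2⁻¹ : ℝ≥0∞) ^ ((P : ℝ)⁻¹) with hσ
  have hσP : σ ^ P = 2⁻¹ := ENNReal.rpow_inv_natCast_pow hP0 _
  have hσ1 : σ < 1 := ENNReal.rpow_lt_one (by simp) (by positivity)
  have hσ0 : σ ≠ 0 := by
    intro h0
    rw [h0, zero_pow hP0] at hσP
    exact absurd hσP.symm (by simp)
  refine ⟨2 * k + k * (Δ * (2 * k)), σ, by finiteness, hσ0, hσ1, fun τ h => ?_⟩
  have hχ : ∀ (_ : V) (a b : ℝ≥0∞), a * (⨆ x, ∑' y, τ Set.univ x y) ≤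
      b * (⨆ x, ∑' y, τ Set.univ x y) → a ≤ b := by
    intro x a b hab
    have h1 : 1 ≤ ⨆ x, ∑' y, τ Set.univ x y :=
      le_iSup_of_le x ((h.one _ x).trans (ENNReal.le_tsum x))
    exact (ENNReal.mul_le_mul_iff_left (by intro e; simp [e] at h1) h.fin).mp hab
  have hA : ∀ x u u₂, π x ≠ u → u₂ ∈ cone (π x) u → dd u u₂ ≤ 1 →
      ee π τ L x u * (⨆ x, ∑' y, τ Set.univ x y) ≤ k * nu π τ x u₂ := by
    intro x u u₂ hu h1 h2
    refine le_trans ?_ (hJ τ h _ (le_max_left J (L + 1)) x u₂ (cone (π x) u)ᶜ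
      (fun e => root_not_mem_cone hu (e ▸ h1))
      (Set.disjoint_left.mpr fun w hw hw' => hw (cone_trans h1 hw')))
    gcongr
    refine ENNReal.tsum_le_tsum fun w => ?_
    gcongr
    refine ii_mono fun hw => ?_
    have := dd_tri (π w) u u₂
    have := le_max_right J (L + 1)
    omega
  have main : ∀ x u, π x ≠ u → ee π τ L x u ≤ 2 * k * σ ^ dd (π x) u := by
    intro x u hu
    have h1 := step_Dec h (Nat.le_add_left 1 J0) hJ2 hA hχ (dd (π x) u / P) x u hu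
      (Nat.div_mul_le_self _ _)
    have h2 : σ ^ (P * (dd (π x) u / P + 1)) ≤ σ ^ dd (π x) u :=
      pow_le_pow_right_of_le_one' hσ1.le (Nat.lt_mul_div_succ _ (by omega)).le
    rw [pow_mul, hσP] at h2
    calc _ ≤ _ := h1
      _ = 2 * k * 2⁻¹ ^ (dd (π x) u / P + 1) := by
          rw [pow_succ, show 2 * k * (2⁻¹ ^ (dd (π x) u / P) * 2⁻¹) =
            (2 * 2⁻¹) * (k * 2⁻¹ ^ (dd (π x) u / P)) by ring,
            ENNReal.mul_inv_cancel (by simp) (by simp), one_mul]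
      _ ≤ _ := by gcongr
  refine ⟨fun x u hu => (main x u hu).trans (by gcongr; exact le_self_add), fun x u n hn => ?_⟩
  have h1 : (∑' v, ii (v ∈ cone (π x) u ∧ dd (π x) v = n) * ee π τ L x v) *
      (⨆ x, ∑' y, τ Set.univ x y) ≤ k * nu π τ x u := by
    rw [← ENNReal.tsum_mul_right]
    refine le_trans (ENNReal.tsum_le_tsum fun v => ?_) ((le_of_eq ENNReal.tsum_mul_left).trans
      (mul_le_mul_right (nu_sphere x u n) k))
    by_cases hv : v ∈ cone (π x) u ∧ dd (π x) v = n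
    · rw [ii_true hv, one_mul, one_mul]
      refine hA x v v (fun e => ?_) (self_mem_cone _ _) (by rw [dd_self]; omega)
      have := hv.2
      rw [e, dd_self] at this
      omega
    · simp [ii_false hv]
  refine hχ x _ _ (h1.trans ?_)
  by_cases hu : π x = u
  · rw [← hu, dd_self, pow_zero, mul_one]
    refine mul_le_mul' ?_ (nu_le x _)
    rw [two_mul, add_assoc]
    exact le_self_add
  · calc k * nu π τ x u ≤ k * (Δ * (2 * k * σ ^ dd (π x) u) * ⨆ x, ∑' y, τ Set.univ x y) := by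
          refine mul_le_mul_right ((h.nu_le_ee hu).trans ?_) k
          gcongr
          exact main x u hu
      _ = k * (Δ * (2 * k)) * σ ^ dd (π x) u * ⨆ x, ∑' y, τ Set.univ x y := by ring
      _ ≤ _ := by gcongr; exact le_add_self

end

section
variable {V : Type*} {TX : Type*} [TrS TX]
variable {Γ : SimpleGraph V} {π : V → TX} {τ : Set TX → V → V → ℝ≥0∞}
  {L Δ : ℕ} {K : ℕ → ℝ≥0∞}


lemma spread (r u : TX) (k : ℕ) : ∃ s : Finset TX,
    2 ^ k ≤ s.card ∧ ∀ v ∈ s, v ∈ cone r u ∧ dd r v = dd r u + k := by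
  induction k generalizing u with
  | zero => exact ⟨{u}, by simp, fun v hv => by
      rw [Finset.mem_singleton.1 hv]; exact ⟨self_mem_cone r u, rfl⟩⟩
  | succ k ih =>
    obtain ⟨c1, a1, a2, -⟩ := branch r u u
    obtain ⟨c2, b1, b2, b3⟩ := branch r u c1
    obtain ⟨s1, p1, p2⟩ := ih c1
    obtain ⟨s2, q1, q2⟩ := ih c2
    have hd : Disjoint s1 s2 := Finset.disjoint_left.2 fun v h1 h2 => b3 (by
      rw [← cone_uniq (p2 v h1).1 (q2 v h2).1 (a2.trans b2.symm)]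
      exact self_mem_cone r c1)
    refine ⟨s1.disjUnion s2 hd, ?_, fun v hv => ?_⟩
    · rw [Finset.card_disjUnion, pow_succ]
      omega
    · rcases Finset.mem_disjUnion.1 hv with h | h
      · exact ⟨cone_trans a1 (p2 v h).1, by rw [(p2 v h).2, a2]; omega⟩
      · exact ⟨cone_trans b1 (q2 v h).1, by rw [(q2 v h).2, b2]; omega⟩

theorem kap_q (h : Ker Γ π τ L Δ K) (hK : K (L + 1) ≠ ⊤) {J : ℕ} (hJ0 : 0 < J)
    (hJ : 4 * (Δ * K (L + 1)) ≤ 2 ^ J) (x : V) : ∃ u, π x ≠ u ∧ dd (π x) u ≤ J ∧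
      2 * ∑' y, τ Set.univ x y ≤ 4 * ∑' y, τ (cone (π x) u)ᶜ x y := by
  set χ := ∑' y, τ Set.univ x y with hχ
  set χs := ⨆ x, ∑' y, τ Set.univ x y with hχs
  have hle : χ ≤ χs := le_iSup (fun x => ∑' y, τ Set.univ x y) x
  have hfin : χ ≠ ⊤ := ne_top_of_le_ne_top h.fin hle
  have hnu : ∀ u, nu π τ x u ≤ χ := fun u => ENNReal.tsum_le_tsum fun y =>
    mul_le_of_le_one_left' (ii_le_one _)
  have hdis : ∀ (c : ℕ → TX) (a n : ℕ), (∀ i j, i < j → j < a + n →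
      Disjoint (cone (π x) (c i)) (cone (π x) (c j))) → ∀ i ∈ Finset.range n,
      ∀ j ∈ Finset.range n, i ≠ j →
      Disjoint (cone (π x) (c (a + i))) (cone (π x) (c (a + j))) := fun c a n hc i hi j hj hij => by
    have := Finset.mem_range.1 hi
    have := Finset.mem_range.1 hj
    rcases lt_or_gt_of_ne hij with h1 | h1
    · exact hc _ _ (by omega) (by omega)
    · exact (hc _ _ (by omega) (by omega)).symm
  obtain ⟨s, hs1, hs2⟩ := spread (π x) (π x) J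
  rw [dd_self, zero_add] at hs2
  obtain ⟨u, hus, hmin⟩ := Finset.exists_min_image s (nu π τ x)
    (Finset.card_pos.1 (lt_of_lt_of_le (by positivity) hs1))
  have hj0' : 2 ^ J * nu π τ x u ≤ χ := by
    have a1 := Finset.card_nsmul_le_sum s (nu π τ x) _ hmin
    rw [nsmul_eq_mul] at a1
    have a2 : (2 : ℝ≥0∞) ^ J ≤ s.card := by exact_mod_cast hs1
    refine (mul_le_mul_left a2 _).trans (a1.trans ((nu_sum s x (π x) (fun v => v)
      (fun i _ => by rw [cone_self]; exact Set.subset_univ _) fun i hi j hj hij =>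
        Set.disjoint_left.2 fun v h1 h2 => hij (cone_uniq h1 h2
          ((hs2 i hi).2.trans (hs2 j hj).2.symm))).trans (hnu _)))
  obtain ⟨j0, rfl⟩ : ∃ j0, J = j0 + 1 := ⟨J - 1, by omega⟩
  have hu := (hs2 u hus).2
  refine ⟨u, Kap_ne hu, hu.le, ?_⟩
  obtain ⟨n, hn⟩ := ENNReal.exists_nat_gt (r := 4 * (Δ * K (L + 1) * χs))
    (ENNReal.mul_ne_top (by simp) (ENNReal.mul_ne_top (ENNReal.mul_ne_top (by simp) hK) h.fin))
  have hn0 : 0 < n := by
    have : (0 : ℝ≥0∞) < n := lt_of_le_of_lt zero_le hn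
    exact_mod_cast this
  obtain ⟨v', hv1, hv2⟩ := exists_far (π x) u n
  obtain ⟨pr, sb, t1, t2, t3, t4⟩ := side (π x) v'
  rw [hv2, hu] at t1 t2 t3 t4
  have hpu : pr (j0 + 1) = u :=
    cone_uniq (t1 (j0 + 1) (by omega)).2 hv1 ((t1 (j0 + 1) (by omega)).1.trans hu.symm)
  have hsum : ∀ m ≤ n, ∑ j ∈ Finset.range m, nu π τ x (sb (j0 + 1 + j)) ≤ nu π τ x u :=
    fun m hm => nu_sum (Finset.range m) x u (fun j => sb (j0 + 1 + j))
      (fun i hi => by
        have := Finset.mem_range.1 hi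
        rw [← hpu]
        exact t3 _ _ (by omega) (by omega))
      (hdis sb (j0 + 1) m fun i j h1 h2 => t4 i j h1 (by omega))
  have hind : ∀ m ≤ n, ∑' y, τ (cone (π x) (pr (j0 + 1 + m)))ᶜ x y ≤
      ∑' y, τ (cone (π x) u)ᶜ x y +
        Δ * K (L + 1) * ∑ j ∈ Finset.range m, nu π τ x (sb (j0 + 1 + j)) := by
    intro m
    induction m with
    | zero => intro _; rw [add_zero, hpu]; exact le_self_add
    | succ m ih =>
      intro hm
      obtain ⟨a1, a2, a3, a4, a5⟩ := t2 (j0 + 1 + m) (by omega)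
      have h0 : dd (π x) (pr (j0 + 1 + m)) = j0 + m + 1 := by
        rw [(t1 _ (by omega)).1]; omega
      refine (Kap_step h (Kap_ne h0) (Kap_ne a1) a2 a3 (Kap_ne (t1 (j0 + 1 + m + 1) (by omega)).1)
        a4 a5).trans ?_
      rw [Finset.sum_range_succ, mul_add, ← add_assoc, ← mul_assoc]
      exact add_le_add (ih (by omega)) le_rfl
  obtain ⟨m, hm, hm'⟩ := Kap_pigeon hn0 (fun j => nu π τ x (sb (j0 + 1 + j)))
    ((hsum n le_rfl).trans (hnu u))
  obtain ⟨a1, a2, a3, -, -⟩ := t2 (j0 + 1 + m) (by omega)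
  have h0 : dd (π x) (pr (j0 + 1 + m)) = j0 + m + 1 := by
    rw [(t1 _ (by omega)).1]; omega
  obtain ⟨w, -, hw⟩ := exists_far (π x) (π x) 1
  rw [dd_self] at hw
  have he : ee π τ L x (pr (j0 + 1 + m)) ≤ K (L + 1) * nu π τ x (sb (j0 + 1 + m)) := by
    refine le_trans ?_ (Kap_low h (b := x) (Kap_ne a1) a2 a3 (Kap_ne hw) (by omega)
      (root_not_mem_cone (Kap_ne hw)))
    exact le_mul_of_one_le_right' ((h.one _ x).trans (ENNReal.le_tsum x))
  have hc := h.cross (Kap_ne h0) (R := Set.univ) (Set.subset_univ _) (fun _ => 1) (M := χs)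
    fun b _ _ _ => by
      simp only [one_mul]
      exact le_iSup (fun x => ∑' y, τ Set.univ x y) b
  simp only [one_mul] at hc
  have q1 : 4 * (Δ * K (L + 1) * ∑ j ∈ Finset.range m, nu π τ x (sb (j0 + 1 + j))) ≤ χ := by
    rw [← mul_assoc]
    exact (mul_le_mul' hJ (hsum m hm.le)).trans hj0'
  have q2 : 4 * (Δ * ee π τ L x (pr (j0 + 1 + m)) * χs) ≤ χ := by
    calc _ ≤ 4 * (Δ * (K (L + 1) * nu π τ x (sb (j0 + 1 + m))) * χs) := by gcongr
      _ = 4 * (Δ * K (L + 1) * χs) * nu π τ x (sb (j0 + 1 + m)) := by ring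
      _ ≤ n * nu π τ x (sb (j0 + 1 + m)) := by gcongr
      _ ≤ χ := hm'
  have h4 : 2 * χ + 2 * χ ≤ 4 * ∑' y, τ (cone (π x) u)ᶜ x y + 2 * χ := by
    calc 2 * χ + 2 * χ = 4 * χ := by ring
      _ ≤ 4 * (∑' y, τ (cone (π x) u)ᶜ x y +
          Δ * K (L + 1) * ∑ j ∈ Finset.range m, nu π τ x (sb (j0 + 1 + j)) +
          Δ * ee π τ L x (pr (j0 + 1 + m)) * χs) :=
          mul_le_mul_right (hc.trans (add_le_add (hind m hm.le) le_rfl)) _
      _ ≤ 4 * ∑' y, τ (cone (π x) u)ᶜ x y + χ + χ := by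
          rw [mul_add, mul_add]
          exact add_le_add (add_le_add le_rfl q1) q2
      _ = _ := by ring
  exact (ENNReal.add_le_add_iff_right (ENNReal.mul_ne_top (by simp) hfin)).1 h4

end

section
variable {V : Type*} {TX : Type*} [TrS TX]
variable {Γ : SimpleGraph V} {π : V → TX} {τ : Set TX → V → V → ℝ≥0∞}
  {L Δ : ℕ} {K : ℕ → ℝ≥0∞}


theorem dec_q (h : Ker Γ π τ L Δ K) (hK : K (L + 1) ≠ ⊤) {J : ℕ} (hJ0 : 0 < J)
    (hJ : 4 * (Δ * K (L + 1)) ≤ 2 ^ J) {k : ℝ≥0∞} (hq : Low2 π τ (L + 1) J k)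
    {P : ℕ} (hP : 2 * Δ * (4 * k) + L + 2 ≤ P) :
    (∀ x u, π x ≠ u → ee π τ L x u ≤ 4 * k * 2⁻¹ ^ (dd (π x) u / P)) ∧
    ∀ x n, 1 ≤ n → ∑' v, ii (dd (π x) v = n) * ee π τ L x v ≤ 4 * k := by
  have hLP : L + 2 ≤ P := by
    have : ((L + 2 : ℕ) : ℝ≥0∞) ≤ P := by
      push_cast
      refine le_trans ?_ hP
      rw [add_assoc]
      exact le_add_self
    exact_mod_cast this
  obtain ⟨J', rfl⟩ : ∃ J', P = J' + L + 1 := ⟨P - L - 1, by omega⟩
  have hJ2 : 2 * Δ * (4 * k) ≤ J' := by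
    refine ENNReal.le_of_add_le_add_right (a := (L : ℝ≥0∞) + 1) (by simp) ?_
    push_cast at hP
    calc _ ≤ 2 * Δ * (4 * k) + L + 2 := by
          rw [← add_assoc]
          gcongr
          exact one_le_two
      _ ≤ _ := hP
      _ = _ := add_assoc _ _ _
  have h1 : ∀ _ : V, 1 ≤ ⨆ x, ∑' y, τ Set.univ x y := fun x =>
    le_iSup_of_le x ((h.one _ x).trans (ENNReal.le_tsum x))
  have hχ : ∀ (_ : V) (a b : ℝ≥0∞), a * (⨆ x, ∑' y, τ Set.univ x y) ≤
      b * (⨆ x, ∑' y, τ Set.univ x y) → a ≤ b := fun x a b hab =>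
    (ENNReal.mul_le_mul_iff_left (zero_lt_one.trans_le (h1 x)).ne' h.fin).mp hab
  have hA : ∀ x u u₂, π x ≠ u → u₂ ∈ cone (π x) u → dd u u₂ ≤ 1 →
      ee π τ L x u * (⨆ x, ∑' y, τ Set.univ x y) ≤ 4 * k * nu π τ x u₂ := by
    intro x u u₂ hu g1 g2
    obtain ⟨x', hx'⟩ :=
      lt_iSup_iff.1 (ENNReal.half_lt_self (zero_lt_one.trans_le (h1 x)).ne' h.fin)
    obtain ⟨u', h2, h3, h4⟩ := kap_q h hK hJ0 hJ x'
    have h5 : (⨆ x, ∑' y, τ Set.univ x y) ≤ 4 * ∑' y, τ (cone (π x') u')ᶜ x' y := by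
      refine le_trans ?_ h4
      rw [← ENNReal.add_halves (⨆ x, ∑' y, τ Set.univ x y), two_mul]
      exact add_le_add hx'.le hx'.le
    have h6 := hq (π x) u₂ (π x') u' x x' (cone (π x) u)ᶜ
      (fun e => root_not_mem_cone hu (e ▸ g1)) h2
      (Set.disjoint_left.mpr fun w hw hw' => hw (cone_trans g1 hw')) h3 (root_not_mem_cone h2)
    have h7 : ee π τ L x u ≤ ∑' w, ii (dd (π w) u₂ ≤ L + 1) * τ (cone (π x) u)ᶜ x w := by
      refine ENNReal.tsum_le_tsum fun w => ?_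
      gcongr
      refine ii_mono fun hw => ?_
      have := dd_tri (π w) u u₂
      omega
    calc _ ≤ (∑' w, ii (dd (π w) u₂ ≤ L + 1) * τ (cone (π x) u)ᶜ x w) *
          (4 * ∑' y, τ (cone (π x') u')ᶜ x' y) := mul_le_mul' h7 h5
      _ = 4 * ((∑' w, ii (dd (π w) u₂ ≤ L + 1) * τ (cone (π x) u)ᶜ x w) *
          ∑' y, τ (cone (π x') u')ᶜ x' y) := by ring
      _ ≤ 4 * (k * nu π τ x u₂) := mul_le_mul_right h6 _
      _ = _ := by ring
  refine ⟨fun x u hu => step_Dec h (by omega) hJ2 hA hχ _ x u hu (Nat.div_mul_le_self _ _),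
    fun x n hn => hχ x _ _ ?_⟩
  rw [← ENNReal.tsum_mul_right]
  refine le_trans (ENNReal.tsum_le_tsum fun v => ?_) ((le_of_eq ENNReal.tsum_mul_left).trans
    (mul_le_mul_right ((nu_sphere (π := π) x (π x) n).trans (nu_le x _)) (4 * k)))
  by_cases hv : dd (π x) v = n
  · rw [ii_true hv, ii_true ⟨by rw [cone_self]; trivial, hv⟩, one_mul, one_mul]
    refine hA x v v (fun e => ?_) (self_mem_cone _ _) (by rw [dd_self]; omega)
    rw [e, dd_self] at hv
    omega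
  · simp [ii_false hv]

end

end Vale.Agent.P165T
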