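import Vale.Agent.P165T.PA

open Classical
open scoped ENNReal

namespace Vale.Agent.P165T

open Vale.Agent.P151 Vale.Agent.P165

universe u

section
variable {V : Type*} {TX : Type*} [TrS TX]

section

variable {Γ : SimpleGraph V} {π : V → TX} {τ : Set TX → V → V → ℝ≥0∞}
  {L Δ : ℕ} {K : ℕ → ℝ≥0∞}

lemma loops_exit (h : Ker Γ π τ L Δ K) (x : V) (n : ℕ) :
    ∑' a, ∑' b, ii (Γ.Adj a b ∧ dd (π x) (π a) ≤ n ∧ ¬ dd (π x) (π b) ≤ n) *
      τ {v | dd (π x) v ≤ n} x a ≤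
      Δ * ∑' v, ii (v ∈ cone (π x) (π x) ∧ dd (π x) v = n + 1) * ee π τ L x v := by
  have key : ∀ a b, ii (Γ.Adj a b ∧ dd (π x) (π a) ≤ n ∧ ¬ dd (π x) (π b) ≤ n) *
      τ {v | dd (π x) v ≤ n} x a ≤ ii (Γ.Adj a b) *
        ∑' v, ii (v ∈ cone (π x) (π x) ∧ dd (π x) v = n + 1) *
          (ii (dd (π a) v ≤ L) * τ (cone (π x) v)ᶜ x a) := by
    intro a b
    by_cases hab : Γ.Adj a b ∧ dd (π x) (π a) ≤ n ∧ ¬ dd (π x) (π b) ≤ n
    · obtain ⟨v, hv, hb⟩ := exists_pre (π x) (π b) (j := n + 1) (by omega)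
      have hR : {w | dd (π x) w ≤ n} ⊆ (cone (π x) v)ᶜ := by
        intro w hw hw'
        have e1 : dd (π x) w ≤ n := hw
        have e2 : dd (π x) w = dd (π x) v + dd v w := hw'
        omega
      have e := cone_cut (hR hab.2.1) hb
      have e' := h.lip a b hab.1
      rw [ii_true hab, ii_true hab.1, one_mul, one_mul]
      refine le_trans ?_ (ENNReal.le_tsum v)
      rw [ii_true ⟨by rw [cone_self]; trivial, hv⟩, ii_true (by omega), one_mul, one_mul]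
      exact h.mono _ _ _ _ hR
    · rw [ii_false hab, zero_mul]
      exact zero_le
  refine (ENNReal.tsum_le_tsum fun a => ENNReal.tsum_le_tsum fun b => key a b).trans ?_
  simp only [ENNReal.tsum_mul_right]
  refine (ENNReal.tsum_le_tsum fun a => mul_le_mul_left (h.deg a) _).trans ?_
  rw [ENNReal.tsum_mul_left, ENNReal.tsum_comm]
  simp only [ENNReal.tsum_mul_left, ee, le_refl]

lemma loops_back (h : Ker Γ π τ L Δ K) {C σ M : ℝ≥0∞} {B : ℕ} (hσ : σ ≤ 1)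
    (hB : ∀ r : TX, ∑' v, ii (dd r v ≤ L) ≤ B)
    (hC : ∀ x u, π x ≠ u → ee π τ L x u ≤ C * σ ^ dd (π x) u)
    (hM : ∀ x, ∑' y, ii (dd (π x) (π y) ≤ L) * τ Set.univ x y ≤ M) (r : TX) (m : ℕ)
    {b : V} (hb : ¬ dd r (π b) ≤ m + L) :
    ∑' y, ii (dd r (π y) ≤ L) * τ Set.univ b y ≤ B * (Δ * (C * σ ^ m) * M) := by
  have k1 : ∀ y, ii (dd r (π y) ≤ L) * τ Set.univ b y ≤
      ∑' v, ii (dd r v ≤ L) * (ii (π y = v) * τ Set.univ b y) := fun y => by
    refine le_trans ?_ (ENNReal.le_tsum (π y))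
    rw [ii_true (rfl : π y = π y), one_mul]
  have k2 : ∀ v, ii (dd r v ≤ L) * ∑' y, ii (π y = v) * τ Set.univ b y ≤
      ii (dd r v ≤ L) * (Δ * (C * σ ^ m) * M) := fun v => by
    by_cases hv : dd r v ≤ L
    · have e := dd_tri r v (π b)
      have e' := dd_comm v (π b)
      have hne : π b ≠ v := by
        rintro rfl
        omega
      have hc := h.cross hne (Set.subset_univ _) (fun y => ii (π y = v)) (M := M) (by
        intro c _ _ hc
        refine le_trans (ENNReal.tsum_le_tsum fun y => mul_le_mul_left (ii_mono ?_) _) (hM c)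
        rintro rfl
        rwa [dd_comm])
      have h0 : ∑' y, ii (π y = v) * τ (cone (π b) v)ᶜ b y = 0 := by
        refine ENNReal.tsum_eq_zero.2 fun y => ?_
        by_cases hy : π y = v
        · rw [h.supp _ _ _ (root_not_mem_cone hne) (by
            rw [hy]; exact fun k => k (self_mem_cone _ _)), mul_zero]
        · rw [ii_false hy, zero_mul]
      rw [h0, zero_add] at hc
      refine mul_le_mul_right (hc.trans ?_) _
      refine mul_le_mul_left (mul_le_mul_right ((hC _ _ hne).trans ?_) _) _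
      exact mul_le_mul_right (pow_le_pow_of_le_one zero_le hσ (by omega)) _
    · rw [ii_false hv, zero_mul, zero_mul]
  refine (ENNReal.tsum_le_tsum k1).trans ?_
  rw [ENNReal.tsum_comm]
  simp only [ENNReal.tsum_mul_left]
  refine (ENNReal.tsum_le_tsum k2).trans ?_
  rw [ENNReal.tsum_mul_right]
  exact mul_le_mul_left (hB r) _

lemma loops_up (h : Ker Γ π τ L Δ K) (x : V) (n : ℕ) (f : V → ℝ≥0∞) {M : ℝ≥0∞}
    (hM : ∀ b, ¬ dd (π x) (π b) ≤ n → ∑' y, f y * τ Set.univ b y ≤ M) :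
    ∑' y, f y * τ Set.univ x y ≤ ∑' y, f y * τ {v | dd (π x) v ≤ n} x y +
      (∑' a, ∑' b, ii (Γ.Adj a b ∧ dd (π x) (π a) ≤ n ∧ ¬ dd (π x) (π b) ≤ n) *
        τ {v | dd (π x) v ≤ n} x a) * M := by
  have hx : π x ∈ {v | dd (π x) v ≤ n} := by
    show dd (π x) (π x) ≤ n
    rw [dd_self]
    omega
  refine (ENNReal.tsum_le_tsum fun y =>
    mul_le_mul_right (h.up _ _ x y (Set.subset_univ _) hx) (f y)).trans ?_
  simp only [mul_add, ENNReal.tsum_add]
  refine add_le_add_right ?_ _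
  simp only [← ENNReal.tsum_mul_left, ← ENNReal.tsum_mul_right]
  rw [ENNReal.tsum_comm]
  refine ENNReal.tsum_le_tsum fun a => ?_
  rw [ENNReal.tsum_comm]
  refine ENNReal.tsum_le_tsum fun b => ?_
  by_cases hab : Γ.Adj a b ∧ dd (π x) (π a) ≤ n ∧ ¬ dd (π x) (π b) ≤ n
  · rw [ii_true hab, one_mul]
    refine le_trans (ENNReal.tsum_le_tsum fun y => ?_)
      (ENNReal.tsum_mul_left.le.trans (mul_le_mul_right (hM b hab.2.2) _))
    rw [mul_left_comm (τ _ x a)]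
    exact mul_le_mul_right (mul_le_of_le_one_left' (ii_le_one _)) _
  · refine le_trans (ENNReal.tsum_eq_zero.2 fun y => ?_).le zero_le
    rw [ii_false fun k => hab ⟨k.1, k.2.1, k.2.2.1⟩, zero_mul, mul_zero]

end

/-- bounded number of returns -/
theorem loops (Γ : SimpleGraph V) (π : V → TX) (L Δ : ℕ)
    (K : ℕ → ℝ≥0∞) (hK : ∀ d, K d ≠ ⊤) : ∃ M : ℝ≥0∞, M ≠ ⊤ ∧
      ∀ τ : Set TX → V → V → ℝ≥0∞, Ker Γ π τ L Δ K →
        ∀ x, ∑' y, ii (dd (π x) (π y) ≤ L) * τ Set.univ x y ≤ M := by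
  obtain ⟨J, hJ⟩ := kap Γ π L Δ K hK
  obtain ⟨C, σ, hC, -, hσ, hd⟩ := dec Γ π L Δ K hK
  obtain ⟨B, hB⟩ := ball_count (TX := TX) L
  have hA : (Δ * C * (B * (Δ * C)) : ℝ≥0∞) ≠ ⊤ := by finiteness
  obtain ⟨m, hm⟩ : ∃ m : ℕ, (Δ * C * (B * (Δ * C)) : ℝ≥0∞) * σ ^ m ≤ 2⁻¹ := by
    have t := ENNReal.Tendsto.const_mul
      (ENNReal.tendsto_pow_atTop_nhds_zero_of_lt_one hσ) (Or.inr hA)
    rw [mul_zero] at t
    exact (t.eventually (ge_mem_nhds (by simp))).exists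
  have hKd := hK (max J (m + L + 1 + L))
  refine ⟨2 * (4 * K (max J (m + L + 1 + L))), by finiteness, fun τ h => ?_⟩
  obtain ⟨M, hM⟩ : ∃ M, M = ⨆ x, ∑' y, ii (dd (π x) (π y) ≤ L) * τ Set.univ x y := ⟨_, rfl⟩
  have hle : ∀ x, ∑' y, ii (dd (π x) (π y) ≤ L) * τ Set.univ x y ≤ M := fun x =>
    hM ▸ le_iSup (fun x => ∑' y, ii (dd (π x) (π y) ≤ L) * τ Set.univ x y) x
  have hfin : M ≠ ⊤ := by
    refine ne_top_of_le_ne_top h.fin (hM ▸ iSup_mono fun x => ?_)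
    exact ENNReal.tsum_le_tsum fun y => mul_le_of_le_one_left' (ii_le_one _)
  have step : M ≤ 4 * K (max J (m + L + 1 + L)) + 2⁻¹ * M := by
    refine hM.le.trans (iSup_le fun x => ?_)
    refine (loops_up h x (m + L) _ fun b hb =>
      loops_back h hσ.le hB (hd τ h).1 hle (π x) m hb).trans (add_le_add ?_ ?_)
    · obtain ⟨u, -, hu⟩ := exists_far (π x) (π x) (m + L + 1)
      rw [dd_self, zero_add] at hu
      have hne : π x ≠ u := by
        rintro rfl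
        rw [dd_self] at hu
        omega
      have k := hJ τ h _ (le_max_left J (m + L + 1 + L)) x u {v | dd (π x) v ≤ m + L} hne (by
        refine Set.disjoint_left.2 fun w hw hw' => ?_
        have e1 : dd (π x) w ≤ m + L := hw
        have e2 : dd (π x) w = dd (π x) u + dd u w := hw'
        omega)
      have h0 : (⨆ x, ∑' y, τ Set.univ x y) ≠ 0 := by
        refine (lt_of_lt_of_le one_pos ((h.one Set.univ x).trans ?_)).ne'
        exact (ENNReal.le_tsum x).trans (le_iSup (fun x => ∑' y, τ Set.univ x y) x)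
      have k' := (ENNReal.mul_le_mul_iff_left h0 h.fin).1
        (k.trans (mul_le_mul_right (nu_le x u) _))
      refine le_trans (ENNReal.tsum_le_tsum fun y => mul_le_mul_left (ii_mono fun e => ?_) _) k'
      have e1 := dd_tri (π y) (π x) u
      have e2 := dd_comm (π y) (π x)
      omega
    · have k := (hd τ h).2 x (π x) (m + L + 1) (by omega)
      rw [dd_self, pow_zero, mul_one] at k
      refine (mul_le_mul_left ((loops_exit h x _).trans (mul_le_mul_right k _)) _).trans ?_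
      refine le_trans (le_of_eq ?_) (mul_le_mul_left hm M)
      ring
  refine fun x => (hle x).trans ?_
  have h2 : 2⁻¹ * M ≠ ⊤ := by finiteness
  have e : M = 2⁻¹ * M + 2⁻¹ * M := by rw [← add_mul, ENNReal.inv_two_add_inv_two, one_mul]
  have k : 2⁻¹ * M ≤ 4 * K (max J (m + L + 1 + L)) :=
    (ENNReal.add_le_add_iff_right h2).1 (e ▸ step)
  rw [e, two_mul]
  exact add_le_add k k

end

section
variable {V : Type*} {TX : Type*} [TrS TX]

lemma tilt_fib (π : V → TX) (F : TX → ℝ≥0∞) (g : V → ℝ≥0∞) :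
    ∑' y, F (π y) * g y = ∑' v, F v * ∑' y, ii (π y = v) * g y := by
  simp only [← ENNReal.tsum_mul_left]
  rw [ENNReal.tsum_comm]
  refine tsum_congr fun y => ?_
  rw [tsum_eq_single (π y) fun v hv => by rw [ii_false (Ne.symm hv), zero_mul, mul_zero],
    ii_true rfl, one_mul]

lemma tilt_sum {θ σ C : ℝ≥0∞} (h0 : θ ≠ 0) (h1 : θ ≠ ⊤) (r t : TX)
    (e : TX → ℝ≥0∞)
    (he : ∀ u n, 1 ≤ n → ∑' v, ii (v ∈ cone r u ∧ dd r v = n) * e v ≤ C * σ ^ dd r u) :
    ∑' v, θ ^ dd v t * (ii (v ≠ r) * e v) ≤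
      C * (1 - θ)⁻¹ * (1 - σ * θ⁻¹)⁻¹ * θ ^ dd r t := by
  haveI : Nonempty TX := ⟨r⟩
  choose! P P1 P2 using fun j (hj : j ≤ dd r t) => exists_pre r t hj
  have k1 : ∀ v, θ ^ dd v t * (ii (v ≠ r) * e v) ≤ ∑' j : ℕ, ∑' m : ℕ,
      θ ^ dd r t * (θ ^ m * θ⁻¹ ^ j) * (ii (j ≤ dd r t ∧ 1 ≤ j + m) *
        (ii (v ∈ cone r (P j) ∧ dd r v = j + m) * e v)) := fun v => by
    by_cases hv : v = r
    · rw [ii_false (not_not.2 hv), zero_mul, mul_zero]
      exact zero_le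
    obtain ⟨u, u1, u2, u3⟩ := tripod r v t
    have a1 : dd r v = dd r u + dd u v := u1
    have a2 : dd r t = dd r u + dd u t := u2
    have a3 : dd r v ≠ 0 := fun h => hv (dd_eq_zero.1 h).symm
    have a4 : P (dd r u) = u := cone_uniq (P2 _ (by omega)) u2 (P1 _ (by omega))
    refine le_trans ?_ ((ENNReal.le_tsum (dd u v)).trans (ENNReal.le_tsum (f := fun j : ℕ =>
      ∑' m : ℕ, θ ^ dd r t * (θ ^ m * θ⁻¹ ^ j) * (ii (j ≤ dd r t ∧ 1 ≤ j + m) *
        (ii (v ∈ cone r (P j) ∧ dd r v = j + m) * e v))) (dd r u)))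
    rw [ii_true hv, ii_true ⟨by omega, by omega⟩, ii_true ⟨by rw [a4]; exact u1, a1⟩,
      tilt_pow h0 h1 (show dd v t + dd r u = dd r t + dd u v by omega), one_mul, one_mul]
  have k2 : ∀ j m : ℕ, ∑' v, θ ^ dd r t * (θ ^ m * θ⁻¹ ^ j) * (ii (j ≤ dd r t ∧ 1 ≤ j + m) *
      (ii (v ∈ cone r (P j) ∧ dd r v = j + m) * e v)) ≤
      C * θ ^ dd r t * (σ * θ⁻¹) ^ j * θ ^ m := fun j m => by
    rw [ENNReal.tsum_mul_left, ENNReal.tsum_mul_left]
    by_cases h : j ≤ dd r t ∧ 1 ≤ j + m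
    · have := he (P j) (j + m) h.2
      rw [P1 j h.1] at this
      rw [ii_true h, one_mul]
      refine (mul_le_mul_right this _).trans (le_of_eq ?_)
      rw [mul_pow]
      ring
    · rw [ii_false h, zero_mul, mul_zero]
      exact zero_le
  refine (ENNReal.tsum_le_tsum k1).trans ?_
  rw [ENNReal.tsum_comm]
  refine (ENNReal.tsum_le_tsum (g := fun j : ℕ =>
    C * θ ^ dd r t * (1 - θ)⁻¹ * (σ * θ⁻¹) ^ j) fun j => ?_).trans (le_of_eq ?_)
  · rw [ENNReal.tsum_comm]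
    refine (ENNReal.tsum_le_tsum (k2 j)).trans (le_of_eq ?_)
    rw [ENNReal.tsum_mul_left, ENNReal.tsum_geometric]
    ring
  · rw [ENNReal.tsum_mul_left, ENNReal.tsum_geometric]
    ring

/-- bounded tilted susceptibility -/
theorem tilt (Γ : SimpleGraph V) (π : V → TX) (L Δ : ℕ)
    (K : ℕ → ℝ≥0∞) (hK : ∀ d, K d ≠ ⊤) : ∃ C θ : ℝ≥0∞, C ≠ ⊤ ∧ θ ≠ 0 ∧ θ < 1 ∧
      ∀ τ : Set TX → V → V → ℝ≥0∞, Ker Γ π τ L Δ K →
        ∀ x t, ∑' y, θ ^ dd (π y) t * τ Set.univ x y ≤ C * θ ^ dd (π x) t := by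
  obtain ⟨C, σ, c0, -, s1, hd⟩ := dec Γ π L Δ K hK
  obtain ⟨M, m0, hM⟩ := loops Γ π L Δ K hK
  obtain ⟨θ, t1, t2⟩ := exists_between s1
  have t0 : θ ≠ 0 := (zero_le.trans_lt t1).ne'
  have t3 : θ ≠ ⊤ := (t2.trans ENNReal.one_lt_top).ne
  have t4 : σ * θ⁻¹ < 1 := ENNReal.div_lt_of_lt_mul (by rwa [one_mul])
  refine ⟨M + Δ * M * (C * (1 - θ)⁻¹ * (1 - σ * θ⁻¹)⁻¹), θ, ?_, t0, t2, fun τ h x t => ?_⟩
  · have a1 : (1 - θ)⁻¹ ≠ ⊤ := ENNReal.inv_ne_top.2 (tsub_pos_of_lt t2).ne'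
    have a2 : (1 - σ * θ⁻¹)⁻¹ ≠ ⊤ := ENNReal.inv_ne_top.2 (tsub_pos_of_lt t4).ne'
    finiteness
  have k : ∀ v, ∑' y, ii (π y = v) * τ Set.univ x y ≤
      ii (v = π x) * M + Δ * M * (ii (v ≠ π x) * ee π τ L x v) := fun v => by
    have k0 : ∀ b, dd v (π b) ≤ L → ∑' y, ii (π y = v) * τ Set.univ b y ≤ M := fun b hb =>
      le_trans (ENNReal.tsum_le_tsum fun y => mul_le_mul_left (ii_mono fun e => by
        rwa [e, dd_comm]) _) (hM τ h b)
    by_cases hv : v = π x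
    · rw [ii_true hv, one_mul]
      exact (k0 x (by rw [hv, dd_self]; exact Nat.zero_le _)).trans le_self_add
    · have a := h.cross (Ne.symm hv) (Set.subset_univ _) (fun y => ii (π y = v))
        fun b _ _ hb => k0 b hb
      have z : ∑' y, ii (π y = v) * τ (cone (π x) v)ᶜ x y = 0 := by
        refine ENNReal.tsum_eq_zero.2 fun y => ?_
        by_cases hy : π y = v
        · rw [h.supp _ x y (root_not_mem_cone (Ne.symm hv))
            (not_not.2 (hy ▸ self_mem_cone _ _)), mul_zero]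
        · rw [ii_false hy, zero_mul]
      rw [z, zero_add] at a
      rw [ii_true hv, one_mul]
      exact (a.trans_eq (by ring)).trans le_add_self
  rw [tilt_fib π (fun v => θ ^ dd v t)]
  refine (ENNReal.tsum_le_tsum fun v => mul_le_mul_right (k v) _).trans ?_
  simp only [mul_add]
  rw [ENNReal.tsum_add, add_mul]
  refine add_le_add (le_of_eq ?_) ?_
  · rw [tsum_eq_single (π x) fun v hv => by rw [ii_false hv, zero_mul, mul_zero],
      ii_true rfl, one_mul, mul_comm]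
  · simp only [mul_left_comm _ ((Δ : ℝ≥0∞) * M)]
    rw [ENNReal.tsum_mul_left, mul_assoc ((Δ : ℝ≥0∞) * M)]
    exact mul_le_mul_right (tilt_sum t0 t3 (π x) t _ ((hd τ h).2 x)) _

end

section
variable {V : Type*} {TX : Type*} [TrS TX]

variable {Γ : SimpleGraph V}

/-- the tilted bound survives a uniform amount of sprinkling -/
theorem decay {π : V → TX} {L Δ : ℕ} (hΔ : ∀ a, ∑' b, ii (Γ.Adj a b) ≤ Δ)
    (hL : ∀ a b, Γ.Adj a b → dd (π a) (π b) ≤ L) {C θ : ℝ≥0∞} (hC : C ≠ ⊤) (hθ : θ ≠ 0)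
    (hθ1 : θ < 1) : ∃ η : ℝ, 0 < η ∧ η ≤ 1 ∧ ∀ p q : ℝ, 0 ≤ p → p ≤ 1 → 0 ≤ q →
      q ≤ p + η * (1 - p) →
      (∀ x t, ∑' y, θ ^ dd (π y) t * tau (wU p Γ.edgeSet) x y ≤ C * θ ^ dd (π x) t) →
      ∀ x y, tau (wU q Γ.edgeSet) x y ≤ 2 * C * θ ^ dd (π x) (π y) := by
  have hθt : θ ≠ ⊤ := hθ1.ne_top
  have hi : θ⁻¹ ≠ ⊤ := ENNReal.inv_ne_top.2 hθ
  have hcan : ∀ n : ℕ, θ⁻¹ ^ n * θ ^ n = 1 := fun n => by
    rw [← mul_pow, ENNReal.inv_mul_cancel hθ hθt, one_pow]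
  obtain ⟨η, hη0, hη1, hη⟩ := decay_eta (c := Δ * θ⁻¹ ^ L * C)
    (ENNReal.mul_ne_top (ENNReal.mul_ne_top (by simp) (ENNReal.pow_ne_top hi)) hC)
  refine ⟨η, hη0, hη1, fun p q hp0 hp1 hq0 hq h x y => ?_⟩
  have hp'0 : 0 ≤ p + η * (1 - p) := hq0.trans hq
  have hp'1 : p + η * (1 - p) ≤ 1 := by nlinarith
  refine (tau_mono_wU hq0 hq hp'1 subset_rfl x y).trans ?_
  rw [tau_eq_iSup hp'0 hp'1]
  refine iSup_le fun F => ?_
  obtain ⟨T, hT⟩ : ∃ T : V → ℝ≥0∞, ∀ x, T x = tau (wU (p + η * (1 - p)) (Γ.edgeSet ∩ F)) x y :=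
    ⟨_, fun _ => rfl⟩
  obtain ⟨M, hM⟩ : ∃ M, M = ⨆ x, T x * θ⁻¹ ^ dd (π x) (π y) := ⟨_, rfl⟩
  have hTM : ∀ x, T x ≤ M * θ ^ dd (π x) (π y) := fun x => by
    calc T x = T x * θ⁻¹ ^ dd (π x) (π y) * θ ^ dd (π x) (π y) := by
          rw [mul_assoc, hcan, mul_one]
      _ ≤ _ := by
          gcongr
          rw [hM]
          exact le_iSup (fun x => T x * θ⁻¹ ^ dd (π x) (π y)) x
  have hfin : M ≠ ⊤ := by
    obtain ⟨W, hW⟩ := tau_fin_supp (p + η * (1 - p)) Γ.edgeSet F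
    refine ne_top_of_le_ne_top (b := ∑ x ∈ insert y W, θ⁻¹ ^ dd (π x) (π y))
      (ENNReal.sum_ne_top.2 fun x _ => ENNReal.pow_ne_top hi) ?_
    rw [hM]
    refine iSup_le fun x => ?_
    by_cases hx : x ∈ insert y W
    · refine le_trans ?_ (Finset.single_le_sum (f := fun x => θ⁻¹ ^ dd (π x) (π y))
        (fun _ _ => zero_le) hx)
      refine mul_le_of_le_one_left' ?_
      rw [hT]
      exact tau_le_one (wU_ok hp'0 hp'1 _) _ _
    · rw [Finset.mem_insert, not_or] at hx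
      rw [hT, hW x y hx.1 (Or.inl hx.2), zero_mul]
      exact zero_le
  have hstep : ∀ x, T x ≤ (C + 2⁻¹ * M) * θ ^ dd (π x) (π y) := fun x => by
    have h1 := sprinkle (w' := wU (p + η * (1 - p)) (Γ.edgeSet ∩ F))
      (wU_ok hp0 hp1 (Γ.edgeSet ∩ F)) (wU_ok hη0.le hη1 (Γ.edgeSet ∩ F)) (fun e => by
        unfold wU
        split_ifs <;> ring) x y
    simp only [← hT] at h1
    have hτ : ∀ a, tau (wU p (Γ.edgeSet ∩ F)) x a ≤ tau (wU p Γ.edgeSet) x a := fun a =>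
      tau_mono_wU hp0 le_rfl hp1 Set.inter_subset_left x a
    rw [add_mul]
    refine h1.trans (add_le_add ((hτ y).trans (le_trans ?_ (h x (π y)))) ?_)
    · refine le_trans ?_ (ENNReal.le_tsum y)
      rw [dd_self, pow_zero, one_mul]
    · have h2 : ∀ a b, tau (wU p (Γ.edgeSet ∩ F)) x a *
          (ENNReal.ofReal (wU η (Γ.edgeSet ∩ F) s(a, b)) * T b) ≤
          θ ^ dd (π a) (π y) * tau (wU p Γ.edgeSet) x a * (ENNReal.ofReal η * M * θ⁻¹ ^ L) *
            ii (Γ.Adj a b) := fun a b => by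
        by_cases he : s(a, b) ∈ Γ.edgeSet ∩ F
        · have hab : Γ.Adj a b := he.1
          have h3 : θ ^ dd (π b) (π y) ≤ θ⁻¹ ^ L * θ ^ dd (π a) (π y) := by
            calc θ ^ dd (π b) (π y) = θ⁻¹ ^ L * θ ^ (L + dd (π b) (π y)) := by
                  rw [pow_add, ← mul_assoc, hcan, one_mul]
              _ ≤ _ := by
                  have := dd_tri (π a) (π b) (π y)
                  have := hL a b hab
                  exact mul_le_mul_right (pow_le_pow_of_le_one zero_le hθ1.le (by omega)) _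
          rw [ii_true hab, wU, if_pos he]
          calc _ ≤ tau (wU p Γ.edgeSet) x a *
                (ENNReal.ofReal η * (M * (θ⁻¹ ^ L * θ ^ dd (π a) (π y)))) := by
                gcongr
                · exact hτ a
                · exact (hTM b).trans (mul_le_mul_right h3 _)
            _ = _ := by ring
        · rw [wU, if_neg he]
          simp
      calc _ ≤ ∑' a, θ ^ dd (π a) (π y) * tau (wU p Γ.edgeSet) x a *
            (ENNReal.ofReal η * M * θ⁻¹ ^ L) * Δ := by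
            refine ENNReal.tsum_le_tsum fun a => ?_
            refine (ENNReal.tsum_le_tsum (h2 a)).trans ?_
            rw [ENNReal.tsum_mul_left]
            exact mul_le_mul_right (hΔ a) _
        _ ≤ C * θ ^ dd (π x) (π y) * (ENNReal.ofReal η * M * θ⁻¹ ^ L) * Δ := by
            rw [ENNReal.tsum_mul_right, ENNReal.tsum_mul_right]
            gcongr
            exact h x (π y)
        _ = ENNReal.ofReal η * (Δ * θ⁻¹ ^ L * C) * M * θ ^ dd (π x) (π y) := by ring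
        _ ≤ _ := by gcongr
  have hM2 : M ≤ 2 * C := by
    refine decay_half hfin ?_
    conv_lhs => rw [hM]
    refine iSup_le fun x => ?_
    calc T x * θ⁻¹ ^ dd (π x) (π y) ≤
          (C + 2⁻¹ * M) * θ ^ dd (π x) (π y) * θ⁻¹ ^ dd (π x) (π y) := by
          gcongr
          exact hstep x
      _ = _ := by rw [mul_assoc, mul_comm (θ ^ _), hcan, mul_one]
  rw [← hT]
  exact (hTM x).trans (mul_le_mul_left hM2 _)

end

section
variable {V : Type*} {TX : Type*} [TrS TX]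

theorem main_of {Γ : SimpleGraph V} {G : Type u} [Group G]
    [MulAction G V] (hG : Geom Γ G) (π : V → TX)
    (hfar : ∀ (x : V) (n : ℕ), ∃ g : G, n ≤ dd (π x) (π (g • x)))
    (hk : ∀ p₀ : ℝ, 0 < p₀ → ∃ (L Δ : ℕ) (K : ℕ → ℝ≥0∞), (∀ d, K d ≠ ⊤) ∧
      ∀ p, p₀ ≤ p → p ≤ 1 → chi Γ p ≠ ⊤ → Ker Γ π (tR Γ π p) L Δ K) : pc Γ < pu Γ := by
  obtain ⟨Δ₀, hΔ₀⟩ := exists_deg hG
  let T : Set ℝ := {p | 0 ≤ p ∧ p ≤ 1 ∧ chi Γ p ≠ ⊤}
  have hb : BddAbove T := ⟨1, fun p hp => hp.2.1⟩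
  have hs : 1 / ((Δ₀ : ℝ) + 1) ∈ T := by
    have h1 : (0 : ℝ) < Δ₀ + 1 := by positivity
    have h2 : 1 / ((Δ₀ : ℝ) + 1) ≤ 1 := by rw [div_le_one h1]; linarith [Nat.cast_nonneg (α := ℝ) Δ₀]
    refine ⟨by positivity, h2, chi_small hΔ₀ (by positivity) h2 ?_⟩
    rw [div_mul_eq_mul_div, div_lt_one h1]; linarith
  set t := sSup T with ht
  have ht0 : 0 < t := lt_of_lt_of_le (by positivity) (le_csSup hb hs)
  have ht1 : t ≤ 1 := csSup_le ⟨_, hs⟩ fun p hp => hp.2.1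
  obtain ⟨L, Δ, K, hK, hker⟩ := hk (t / 2) (by linarith)
  obtain ⟨C, θ, hC, hθ0, hθ1, htilt⟩ := tilt Γ π L Δ K hK
  have near : ∀ a < t, ∃ p ∈ T, a < p ∧ t / 2 ≤ p := fun a ha => by
    obtain ⟨p, hp, h⟩ := exists_lt_of_lt_csSup ⟨_, hs⟩ (max_lt ha (show t / 2 < t by linarith))
    exact ⟨p, hp, (le_max_left _ _).trans_lt h, ((le_max_right _ _).trans_lt h).le⟩
  have bound : ∀ p ∈ T, t / 2 ≤ p → ∀ x s, ∑' y, θ ^ dd (π y) s * tau (wU p Γ.edgeSet) x y
      ≤ C * θ ^ dd (π x) s := fun p hp h x s => by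
    have := htilt _ (hker p h hp.2.1 hp.2.2) x s
    simpa only [tR, Set.preimage_univ, inE_univ] using this
  obtain ⟨p₁, hp₁, -, hp₁'⟩ := near 0 ht0
  have k₁ := hker p₁ hp₁' hp₁.2.1 hp₁.2.2
  obtain ⟨η, hη0, hη1, hdec⟩ := decay k₁.deg k₁.lip hC hθ0 hθ1
  have nonu : ∀ q : unitInterval, ∀ p ∈ T, t / 2 ≤ p → (q : ℝ) ≤ p + η * (1 - p) →
      ProbabilityTheory.setBernoulli Γ.edgeSet q {ω | UniqueInf ω} ≠ 1 := by
    intro q p hp h1 h2
    refine not_unique hG q fun x ε hε => ?_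
    obtain ⟨n, hn⟩ := small_pow (C := 2 * C) (ENNReal.mul_ne_top (by simp) hC) hθ1 hε
    obtain ⟨g, hg⟩ := hfar x n
    refine ⟨g, (hdec p q hp.1 hp.2.1 q.2.1 h2 (bound p hp h1) x (g • x)).trans_lt ?_⟩
    exact hn _ hg
  have ht2 : t < 1 := by
    obtain ⟨x⟩ := hG.conn.nonempty
    obtain ⟨n, hn⟩ := small_pow (C := 2 * C) (ENNReal.mul_ne_top (by simp) hC) hθ1
      (ε := ENNReal.ofReal (1 / 2)) (by simp)
    obtain ⟨g, hg⟩ := hfar x n
    obtain ⟨P, hP, hP'⟩ := exists_path hG.conn x (g • x)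
    by_contra hcon
    have e : t = 1 := le_antisymm ht1 (not_lt.1 hcon)
    have c1 : ContinuousAt (fun s : ℝ => s ^ P.card) 1 := (continuous_pow _).continuousAt
    have c2 := c1.eventually (lt_mem_nhds (show (1 / 2 : ℝ) < 1 ^ P.card by norm_num))
    obtain ⟨δ, hδ, c3⟩ := Metric.eventually_nhds_iff.1 c2
    obtain ⟨p, hp, h1, h2⟩ := near (t - δ) (by linarith)
    have c4 : (1 / 2 : ℝ) < p ^ P.card := c3 (by
      rw [Real.dist_eq, abs_lt]; constructor <;> linarith [hp.2.1])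
    have c5 := (hdec p p hp.1 hp.2.1 hp.1 (by nlinarith [hp.2.1]) (bound p hp h2) x (g • x))
    have c6 := (pow_le_tau hp.1 hp.2.1 hP hP').trans_lt (c5.trans_lt (hn _ hg))
    rw [ENNReal.ofReal_lt_ofReal_iff (by norm_num)] at c6
    linarith
  have up : (pc Γ : ℝ) ≤ t := by
    refine le_of_forall_gt_imp_ge_of_dense fun a ha => ?_
    by_cases ha1 : 1 ≤ a
    · exact (pc Γ).2.2.trans ha1
    have h1 : chi Γ ((t + a) / 2) = ⊤ := by
      by_contra hcon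
      have := le_csSup hb (show (t + a) / 2 ∈ T from ⟨by linarith, by linarith, hcon⟩)
      linarith
    obtain ⟨o, ho⟩ := exists_phi hG (by linarith) (by linarith) h1
    obtain ⟨θ', h2, h3⟩ := arm_of_phi hΔ₀ (p := a) (by linarith) (by linarith) (by linarith) ho
    have h4 := perc_of_arm hΔ₀ hG.conn (p := ⟨a, by linarith, by linarith⟩) h2 h3
    have h5 : pc Γ ≤ ⟨a, by linarith, by linarith⟩ := sInf_le h4
    exact h5
  have hη2 : 0 < η * (1 - t) := mul_pos hη0 (by linarith)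
  have low : t + η * (1 - t) / 2 ≤ (pu Γ : ℝ) := by
    have hm : t + η * (1 - t) / 2 ∈ unitInterval := ⟨by linarith, by nlinarith⟩
    have : (⟨_, hm⟩ : unitInterval) ≤ pu Γ := by
      refine le_sInf fun q hq => ?_
      by_contra hcon
      have h1 : (q : ℝ) < t + η * (1 - t) / 2 := not_le.1 hcon
      obtain ⟨p, hp, h2, h3⟩ := near (t - η * (1 - t) / 2) (by linarith)
      have h4 : p ≤ t := le_csSup hb hp
      exact nonu q p hp h3 (by nlinarith) hq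
    exact this
  have : (pc Γ : ℝ) < pu Γ := by linarith
  exact this

end

end Vale.Agent.P165T
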