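import Vale.Agent.P165T.PA

open Classical
open scoped ENNReal

namespace Vale.Agent.P165T

open Vale.Agent.P151 Vale.Agent.P165

universe u

section
variable {V : Type*} {TX : Type*} [TrS TX]

lemma CfgT_geo {r u a b s : TX} (ha : a ∈ cone r u) (hb : b ∈ cone r u)
    (hs : b ∈ cone a s) : s ∈ cone r u := by
  by_contra h
  have h1 := cone_cut h ha
  have h2 := cone_cut h hb
  have h3 : dd a b = dd a s + dd s b := hs
  have h4 := dd_tri a u b
  have h5 := dd_comm a s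
  have h6 := dd_comm a u
  have h7 : dd s u = 0 := by omega
  rw [dd_eq_zero] at h7
  exact h (h7 ▸ self_mem_cone r s)

lemma CfgT_ball {r c t s' s : TX} {ρ : ℕ} (ht : t ∈ cone r c) (hs' : s' ∈ cone r t)
    (hρ : ρ ≤ dd c t) (hd : dd s' s ≤ ρ) : s ∈ cone r c := by
  by_contra h
  have h0 := cone_trans ht hs'
  have h1 := cone_cut h h0
  have h2 : dd r t = dd r c + dd c t := ht
  have h3 : dd r s' = dd r t + dd t s' := hs'
  have h4 : dd r s' = dd r c + dd c s' := h0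
  have h5 := dd_comm s s'
  have h7 : dd s c = 0 := by omega
  rw [dd_eq_zero] at h7
  exact h (h7 ▸ self_mem_cone r s)

end

section
variable {V : Type*} {TX : Type*} [TrS TX]
variable {G : Type u} [Group G] {ρ : G →* Equiv.Perm TX}


lemma TreeAct.half_smul (hρ : TreeAct ρ) {g : G} {s t v : TX} :
    ρ g v ∈ half (ρ g s) (ρ g t) ↔ v ∈ half s t := by
  change dd (ρ g v) (ρ g t) < dd (ρ g v) (ρ g s) ↔ dd v t < dd v s
  rw [hρ.iso, hρ.iso]

lemma TreeAct.cone_smul (hρ : TreeAct ρ) {g : G} {s t v : TX} :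
    ρ g v ∈ cone (ρ g s) (ρ g t) ↔ v ∈ cone s t := by
  change dd (ρ g s) (ρ g v) = dd (ρ g s) (ρ g t) + dd (ρ g t) (ρ g v) ↔ dd s v = dd s t + dd t v
  rw [hρ.iso, hρ.iso, hρ.iso]

lemma TreeAct.edge_orb (hρ : TreeAct ρ) : ∃ Es : Finset (TX × TX),
    (∀ e ∈ Es, dd e.1 e.2 = 1) ∧
      ∀ q u, dd q u = 1 → ∃ e ∈ Es, ∃ g : G, q = ρ g e.1 ∧ u = ρ g e.2 := by
  obtain ⟨s, hs⟩ := hρ.cof
  have h1 : (⋃ x ∈ (s : Set TX), {v | dd x v ≤ 1}).Finite :=
    s.finite_toSet.biUnion fun x _ => ball_fin x 1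
  have h2 : {e : TX × TX | e.1 ∈ s ∧ dd e.1 e.2 = 1}.Finite := by
    refine (s.finite_toSet.prod h1).subset ?_
    rintro ⟨a, b⟩ ⟨ha, hb⟩
    exact ⟨ha, Set.mem_biUnion ha (le_of_eq hb)⟩
  refine ⟨h2.toFinset, fun e he => (h2.mem_toFinset.1 he).2, fun q u hq => ?_⟩
  obtain ⟨g, hg⟩ := hs q
  refine ⟨(ρ g q, ρ g u), h2.mem_toFinset.2 ⟨hg, (hρ.iso g q u).trans hq⟩, g⁻¹, ?_, ?_⟩ <;> simp

lemma TreeAct.fx_cos (hρ : TreeAct ρ) (u : TX) (l : List TX) :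
    ∃ R : Finset G, ∀ ν : G, ρ ν u = u → ∃ γ ∈ R, γ⁻¹ * ν ∈ fx ρ l := by
  let F : G → ({t // t ∈ l} → TX) := fun ν t => ρ ν t.1
  have hl : Finite {t // t ∈ l} := l.finite_toSet.to_subtype
  have hf : (F '' {ν | ρ ν u = u}).Finite := by
    refine (Set.Finite.pi' (fun t : {t // t ∈ l} => ball_fin u (dd u t.1))).subset ?_
    rintro _ ⟨ν, hν, rfl⟩ t
    have hν' : ρ ν u = u := hν
    change dd u (ρ ν t.1) ≤ dd u t.1
    rw [← hρ.iso ν u t.1, hν']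
  obtain ⟨R, -, hRf, hRe⟩ := Set.Finite.exists_subset_finite_image_eq hf subset_rfl
  refine ⟨hRf.toFinset, fun ν hν => ?_⟩
  have hm : F ν ∈ F '' R := hRe ▸ ⟨ν, hν, rfl⟩
  obtain ⟨γ, hγ, e⟩ := hm
  refine ⟨γ, hRf.mem_toFinset.2 hγ, fun t ht => ?_⟩
  have e' : ρ γ t = ρ ν t := congrFun e ⟨t, ht⟩
  rw [map_mul, map_inv, Equiv.Perm.mul_apply, Equiv.Perm.inv_eq_iff_eq, e']

lemma TreeAct.irr_bdd (hρ : TreeAct ρ) {s' t' : TX} (h' : dd s' t' = 1) :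
    ∃ n : ℕ, ∀ s t : TX, dd s t = 1 →
      ∃ g : G, (∀ v ∈ half s' t', ρ g v ∈ half s t) ∧ dd t (ρ g t') ≤ n := by
  obtain ⟨Es, hE, hE'⟩ := hρ.edge_orb
  have h1 : ∀ e : TX × TX, ∃ g : G, dd e.1 e.2 = 1 →
      ∀ v ∈ half s' t', ρ g v ∈ half e.1 e.2 := by
    intro e
    by_cases he : dd e.1 e.2 = 1
    · obtain ⟨g, hg⟩ := hρ.irr _ _ _ _ he h'
      exact ⟨g, fun _ => hg⟩
    · exact ⟨1, fun h => absurd h he⟩
  choose k hk using h1
  refine ⟨Es.sup fun e => dd e.2 (ρ (k e) t'), fun s t hst => ?_⟩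
  obtain ⟨e, he, g, rfl, rfl⟩ := hE' s t hst
  refine ⟨g * k e, fun v hv => ?_, ?_⟩
  · rw [map_mul, Equiv.Perm.mul_apply]
    exact hρ.half_smul.2 (hk e (hE e he) v hv)
  · rw [map_mul, Equiv.Perm.mul_apply, hρ.iso]
    exact Finset.le_sup (f := fun e => dd e.2 (ρ (k e) t')) he

end

section
variable {V : Type*} {TX : Type*} [TrS TX]
variable {G : Type u} [Group G] {ρ : G →* Equiv.Perm TX}


theorem TreeAct.many (hρ : TreeAct ρ) {q u a : TX}
    (hq : dd q u = 1) (ha : a ∈ cone u q) (ha' : dd u a = 2) (t : TX) :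
    ∃ n₁ : ℕ, ∀ ℓ k : ℕ, dd u t + 1 ≤ ℓ → ∃ J : Finset G, 2 ^ k ≤ J.card ∧
      (∀ g ∈ J, Ori ρ q u a t (ℓ + k) (ℓ + k + n₁) g) ∧
      ∀ g ∈ J, ∀ g' ∈ J, ρ g q = ρ g' q → g = g' := by
  have hqu : dd u q = 1 := by rw [dd_comm, hq]
  obtain ⟨a₁, m₁, d₁, hna⟩ := branch u q a
  have hua : u ≠ a₁ := fun e => by rw [← e, dd_self] at d₁; omega
  have e1 : dd u a₁ = dd u q + dd q a₁ := m₁
  have e2 : dd u a = dd u q + dd q a := ha
  have hnq : q ∉ cone u a₁ := fun h => by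
    have : dd u q = dd u a₁ + dd a₁ q := h
    omega
  have haa : dd a a₁ = 2 := by
    obtain ⟨m, -, -, h3⟩ := tripod u a a₁
    have h4 := dd_tri a q a₁
    have h5 := dd_comm a q
    have h6 : dd a a₁ ≠ 0 := fun h => hna (dd_eq_zero.1 h ▸ self_mem_cone u a)
    omega
  obtain ⟨b, hb1, -, hb2⟩ := cone_half hua
  obtain ⟨n₀, hn₀⟩ := hρ.irr_bdd (s' := a₁) (t' := b) (by rw [dd_comm, hb1])
  refine ⟨n₀ + dd b q, fun ℓ k hℓ => ?_⟩
  obtain ⟨t', ht', dt'⟩ := exists_far u t (ℓ - dd u t)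
  obtain ⟨Y, hY, hY'⟩ := spread u t' k
  have hg : ∀ y : TX, ∃ g : G, u ≠ y →
      (∀ v, v ∉ cone u a₁ → ρ g v ∈ cone u y) ∧ dd y (ρ g b) ≤ n₀ := by
    intro y
    by_cases hy : u = y
    · exact ⟨1, fun h => absurd hy h⟩
    obtain ⟨y', k1, k2, -⟩ := cone_half hy
    obtain ⟨g, g1, g2⟩ := hn₀ y' y k1
    refine ⟨g, fun _ => ⟨fun v hv => ?_, g2⟩⟩
    rw [k2]
    refine g1 v ?_
    rw [← hb2]
    exact hv
  choose g hg using hg
  have huy : ∀ y ∈ Y, u ≠ y := fun y hy e => by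
    have := (hY' y hy).2
    rw [← e, dd_self] at this
    omega
  have hinj : ∀ y ∈ Y, ∀ y' ∈ Y, ρ (g y) q = ρ (g y') q → y = y' := fun y hy y' hy' e =>
    cone_uniq ((hg y (huy y hy)).1 q hnq) (e ▸ (hg y' (huy y' hy')).1 q hnq)
      ((hY' y hy).2.trans (hY' y' hy').2.symm)
  refine ⟨Y.image g, ?_, fun g' hg' => ?_, fun g₁ h₁ g₂ h₂ e => ?_⟩
  · rw [Finset.card_image_of_injOn]
    · exact hY
    · exact fun y hy y' hy' e => hinj y hy y' hy' (by rw [e])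
  · obtain ⟨y, hy, rfl⟩ := Finset.mem_image.1 hg'
    obtain ⟨k1, k2⟩ := hg y (huy y hy)
    obtain ⟨k3, k4⟩ := hY' y hy
    have k5 : dd u (ρ (g y) q) = dd u y + dd y (ρ (g y) q) := k1 q hnq
    have k6 := dd_tri y (ρ (g y) b) (ρ (g y) q)
    rw [hρ.iso] at k6
    obtain ⟨x, hx⟩ := (ρ (g y)).surjective u
    have hxa : x ∈ cone u a₁ := by
      by_contra h
      exact root_not_mem_cone (huy y hy) (hx ▸ k1 x h)
    have l1 : dd u x = dd u a₁ + dd a₁ x := hxa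
    have l2 := cone_cut hnq hxa
    have l3 := cone_cut hna hxa
    have l4 := dd_comm x u
    have l5 := dd_comm x q
    have l6 := dd_comm x a
    have l7 : u ∈ cone x q := geo_mem.2 (by omega)
    have l8 : a ∈ cone x q := geo_mem.2 (by omega)
    have l9 := (hρ.cone_smul (g := g y)).2 l7
    have l10 := (hρ.cone_smul (g := g y)).2 l8
    rw [hx] at l9 l10
    exact ⟨cone_trans ht' (cone_trans k3 (k1 q hnq)), by omega, by omega, l9, l10⟩
  · obtain ⟨y, hy, rfl⟩ := Finset.mem_image.1 h₁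
    obtain ⟨y', hy', rfl⟩ := Finset.mem_image.1 h₂
    rw [hinj y hy y' hy' e]

end

section
variable {V : Type*} {TX : Type*} [TrS TX]
variable {Γ : SimpleGraph V} {G : Type u} [Group G] [MulAction G V]
variable {π : V → TX}


end

section
variable {V : Type*} {TX : Type*} [TrS TX]
variable {Γ : SimpleGraph V} {G : Type u} [Group G] [MulAction G V]
variable {ρ : G →* Equiv.Perm TX} {π : V → TX}


lemma Tj.tR_smul (hs : Tj Γ ρ π) (p : ℝ) (R : Set TX) (g : G) (x y : V) :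
    tR Γ π p R (g • x) (g • y) = tR Γ π p {v | ρ g v ∈ R} x y :=
  P165T.tR_smul hs.geom hs.eqv p R g x y

lemma Tj.lip (hs : Tj Γ ρ π) : ∃ L : ℕ, ∀ a b, Γ.Adj a b → dd (π a) (π b) ≤ L := by
  obtain ⟨s, h⟩ := hs.geom.cof
  refine ⟨s.sup fun v => (hs.geom.locfin v).toFinset.sup fun w => dd (π v) (π w),
    fun a b hab => ?_⟩
  obtain ⟨g, hg⟩ := h a
  rw [← hs.act.iso g, ← hs.eqv, ← hs.eqv]
  refine le_trans ?_ (Finset.le_sup
    (f := fun v => (hs.geom.locfin v).toFinset.sup fun w => dd (π v) (π w)) hg)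
  exact Finset.le_sup (f := fun w => dd (π (g • a)) (π w))
    ((Set.Finite.mem_toFinset _).2 ((hs.geom.adj g a b).2 hab))

lemma Tj.near_orb (hs : Tj Γ ρ π) (u : TX) (l : List TX) (d : ℕ) :
    ∃ W : Finset V, (∀ w ∈ W, dd (π w) u ≤ d) ∧
      ∀ w, dd (π w) u ≤ d → ∃ w₀ ∈ W, ∃ n ∈ fx ρ (u :: l), w = n • w₀ := by
  obtain ⟨s, h⟩ := hs.geom.cof
  choose g hg using h
  have hne : Nonempty V := hs.geom.conn.nonempty
  let T : V → V × (Fin (u :: l).length → TX) :=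
    fun w => (g w • w, fun k => ρ (g w) ((u :: l).get k))
  let D : Set V := {w | dd (π w) u ≤ d}
  have hfin : (T '' D).Finite := by
    refine (s.finite_toSet.biUnion (t := fun i => {i} ×ˢ
      {f : Fin (u :: l).length → TX |
        ∀ k, f k ∈ {v | dd (π i) v ≤ d + dd u ((u :: l).get k)}})
      fun i _ => (Set.finite_singleton i).prod (Set.Finite.pi' fun k => ball_fin _ _)).subset ?_
    rintro _ ⟨w, hw, rfl⟩
    have hw' : dd (π w) u ≤ d := hw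
    refine Set.mem_biUnion (hg w) ⟨rfl, fun k => ?_⟩
    change dd (π (g w • w)) (ρ (g w) ((u :: l).get k)) ≤ _
    rw [hs.eqv, hs.act.iso]
    have := dd_tri (π w) u ((u :: l).get k)
    omega
  refine ⟨hfin.toFinset.image (Function.invFunOn T D), fun w hw => ?_, fun w hw => ?_⟩
  · obtain ⟨a, ha, rfl⟩ := Finset.mem_image.1 hw
    exact Function.invFunOn_mem (hfin.mem_toFinset.1 ha)
  · refine ⟨Function.invFunOn T D (T w),
      Finset.mem_image_of_mem _ (hfin.mem_toFinset.2 ⟨w, hw, rfl⟩), ?_⟩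
    have e : T (Function.invFunOn T D (T w)) = T w := Function.invFunOn_eq ⟨w, hw, rfl⟩
    generalize Function.invFunOn T D (T w) = w₀ at e
    obtain ⟨e1, e2⟩ := Prod.mk.inj e
    refine ⟨(g w)⁻¹ * g w₀, fun t ht => ?_, ?_⟩
    · obtain ⟨k, rfl⟩ := List.mem_iff_get.1 ht
      rw [map_mul, Equiv.Perm.mul_apply, congrFun e2 k, map_inv]
      simp
    · rw [mul_smul, e1, inv_smul_smul]

lemma Tj.dense (hs : Tj Γ ρ π) : ∃ R : ℕ, ∀ t, ∃ x : V, dd (π x) t ≤ R := by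
  obtain ⟨s, h⟩ := hs.act.cof
  obtain ⟨o⟩ : Nonempty V := hs.geom.conn.nonempty
  refine ⟨s.sup fun t => dd (π o) t, fun t => ?_⟩
  obtain ⟨g, hg⟩ := h t
  refine ⟨g⁻¹ • o, ?_⟩
  rw [← hs.act.iso g, ← hs.eqv, smul_inv_smul]
  exact Finset.le_sup (f := fun t => dd (π o) t) hg

lemma walkT_one (hs : Tj Γ ρ π) (x z : V) : ∃ r n : ℕ, ∀ g : G, ∃ P : Finset (Sym2 V),
    (P : Set (Sym2 V)) ⊆ inE Γ (π ⁻¹' {s | dd (π (g • x)) s ≤ r}) ∧ P.card ≤ n ∧
      ∀ ω : Set (Sym2 V), (P : Set (Sym2 V)) ⊆ ω → Conn ω (g • x) (g • z) := by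
  obtain ⟨P, hP, hc⟩ := exists_path hs.geom.conn x z
  refine ⟨(P.biUnion Sym2.toFinset).sup fun v => dd (π x) (π v), P.card, fun g =>
    ⟨P.image (Sym2.map (g • ·)), ?_, Finset.card_image_le, fun ω hω => ?_⟩⟩
  · intro e he
    obtain ⟨e', he', rfl⟩ := Finset.mem_image.1 (Finset.mem_coe.1 he)
    refine (iv_map_mem_inE hs.geom _ g e').2 ⟨hP he', fun v hv => ?_⟩
    change dd (π (g • x)) (π (g • v)) ≤ _
    rw [hs.eqv, hs.eqv, hs.act.iso]
    exact Finset.le_sup (f := fun v => dd (π x) (π v))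
      (Finset.mem_biUnion.2 ⟨e', he', Sym2.mem_toFinset.2 hv⟩)
  · exact iv_conn_map g (fun e he => hω (Finset.mem_coe.2 (Finset.mem_image_of_mem _ he)))
      (hc _ subset_rfl)

lemma walkT_fin (hs : Tj Γ ρ π) {T : Set (V × V)} (hT : T.Finite) : ∃ r n : ℕ, ∀ a ∈ T, ∀ g : G,
    ∃ P : Finset (Sym2 V),
      (P : Set (Sym2 V)) ⊆ inE Γ (π ⁻¹' {s | dd (π (g • a.1)) s ≤ r}) ∧ P.card ≤ n ∧
      ∀ ω : Set (Sym2 V), (P : Set (Sym2 V)) ⊆ ω → Conn ω (g • a.1) (g • a.2) := by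
  choose r n h using fun a : V × V => walkT_one hs a.1 a.2
  refine ⟨hT.toFinset.sup r, hT.toFinset.sup n, fun a ha g => ?_⟩
  obtain ⟨P, h1, h2, h3⟩ := h a g
  have ha' := hT.mem_toFinset.2 ha
  refine ⟨P, h1.trans (inE_mono fun v hv => ?_), h2.trans (Finset.le_sup ha'), h3⟩
  exact le_trans (show dd (π (g • a.1)) (π v) ≤ r a from hv) (Finset.le_sup ha')

lemma walkT_step (hs : Tj Γ ρ π) : ∃ R r n : ℕ, ∀ (x : V) (t : TX),
    dd (π x) t ≤ R + 1 → ∃ (z : V) (P : Finset (Sym2 V)), dd (π z) t ≤ R ∧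
      (P : Set (Sym2 V)) ⊆ inE Γ (π ⁻¹' {s | dd (π x) s ≤ r}) ∧ P.card ≤ n ∧
      ∀ ω : Set (Sym2 V), (P : Set (Sym2 V)) ⊆ ω → Conn ω x z := by
  obtain ⟨R, hR⟩ := hs.dense
  choose ζ hζ using hR
  obtain ⟨S, hS⟩ := hs.geom.cof
  obtain ⟨r, n, h⟩ := walkT_fin hs (S.finite_toSet.biUnion
    (t := fun i => (fun t => (i, ζ t)) '' {t | dd (π i) t ≤ R + 1})
    fun i _ => (ball_fin _ _).image _)
  refine ⟨R, r, n, fun x t hxt => ?_⟩
  obtain ⟨g, hg⟩ := hS x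
  obtain ⟨P, h1, h2, h3⟩ := h (g • x, ζ (ρ g t)) (Set.mem_biUnion hg ⟨ρ g t, by
    change dd (π (g • x)) (ρ g t) ≤ R + 1
    rwa [hs.eqv, hs.act.iso], rfl⟩) g⁻¹
  simp only [inv_smul_smul] at h1 h3
  refine ⟨_, P, ?_, h1, h2, h3⟩
  rw [← hs.act.iso g, ← hs.eqv, smul_inv_smul]
  exact hζ _

lemma Tj.walk (hs : Tj Γ ρ π) : ∃ r n : ℕ, ∀ (x : V) (t : TX),
    ∃ (z : V) (P : Finset (Sym2 V)), dd (π z) t ≤ r ∧
      (P : Set (Sym2 V)) ⊆ inE Γ (π ⁻¹' {s | ∃ s', t ∈ cone (π x) s' ∧ dd s' s ≤ r}) ∧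
      P.card ≤ n * dd (π x) t ∧
      ∀ ω : Set (Sym2 V), (P : Set (Sym2 V)) ⊆ ω → Conn ω x z := by
  obtain ⟨R, r, n, h⟩ := walkT_step hs
  have key : ∀ (t : TX) (k : ℕ) (x : V) (u : TX), dd (π x) u ≤ R →
      dd u t = k → ∃ (z : V) (P : Finset (Sym2 V)), dd (π z) t ≤ R ∧
      (P : Set (Sym2 V)) ⊆ inE Γ (π ⁻¹' {s | ∃ s', t ∈ cone u s' ∧ dd s' s ≤ R + r}) ∧
      P.card ≤ n * k ∧ ∀ ω : Set (Sym2 V), (P : Set (Sym2 V)) ⊆ ω → Conn ω x z := by
    intro t k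
    induction k with
    | zero =>
      intro x u hx hk
      exact ⟨x, ∅, dd_eq_zero.1 hk ▸ hx, by simp, by simp, fun ω _ => Conn.refl _ _⟩
    | succ k ih =>
      intro x u hx hk
      obtain ⟨u', hu, hut⟩ := exists_pre u t (j := 1) (by omega)
      have hut' := geo_mem.1 hut
      have c1 := dd_tri (π x) u u'
      obtain ⟨y, P, h0, h1, h2, h3⟩ := h x u' (by omega)
      obtain ⟨z, P', k1, k2, k3, k4⟩ := ih y u' h0 (by omega)
      refine ⟨z, P ∪ P', k1, ?_, ?_, fun ω hω => ?_⟩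
      · rw [Finset.coe_union]
        refine Set.union_subset (h1.trans (inE_mono fun v hv => ?_))
          (k2.trans (inE_mono fun v hv => ?_))
        · refine ⟨u, by rw [cone_self]; trivial, ?_⟩
          have b1 : dd (π x) (π v) ≤ r := hv
          have b2 := dd_tri u (π x) (π v)
          rw [dd_comm u (π x)] at b2
          omega
        · obtain ⟨s', a1, a2⟩ := hv
          refine ⟨s', geo_mem.2 ?_, a2⟩
          have b1 := geo_mem.1 a1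
          have b2 := dd_tri u u' s'
          have b3 := dd_tri u s' t
          omega
      · refine (Finset.card_union_le _ _).trans ?_
        rw [Nat.mul_succ]
        omega
      · rw [Finset.coe_union, Set.union_subset_iff] at hω
        exact (h3 ω hω.1).trans (k4 ω hω.2)
  refine ⟨R + r, n, fun x t => ?_⟩
  obtain ⟨z, P, k1, k2, k3, k4⟩ := key t _ x (π x) (by rw [dd_self]; omega) rfl
  exact ⟨z, P, by omega, k2, k3, k4⟩

end

section
variable {V : Type*} {TX : Type*} [TrS TX]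
variable {Γ : SimpleGraph V} {G : Type u} [Group G] [MulAction G V]
variable {π : V → TX}

lemma mmb_le (π : V → TX) (τ : Set TX → V → V → ℝ≥0∞) {D : ℕ}
    {q u : TX} {w : V} (h1 : dd q u = 1) (h2 : dd (π w) u ≤ D) :
    ∑' w', ii (dd (π w') u ≤ D) * τ (half q u) w w' ≤ mm π τ D :=
  le_iSup_of_le q (le_iSup_of_le u (le_iSup_of_le w (le_iSup_of_le ⟨h1, h2⟩ le_rfl)))

lemma mmb_ge (π : V → TX) (τ : Set TX → V → V → ℝ≥0∞) {D : ℕ} {M : ℝ≥0∞}
    (h : ∀ q u w, dd q u = 1 → dd (π w) u ≤ D →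
      ∑' w', ii (dd (π w') u ≤ D) * τ (half q u) w w' ≤ M) : mm π τ D ≤ M :=
  iSup_le fun q => iSup_le fun u => iSup_le fun w => iSup_le fun k => h q u w k.1 k.2

lemma mm_mono (π : V → TX) (τ : Set TX → V → V → ℝ≥0∞) {D D' : ℕ}
    (h : D ≤ D') : mm π τ D ≤ mm π τ D' :=
  mmb_ge π τ fun _ _ _ h1 h2 => le_trans (ENNReal.tsum_le_tsum fun _ =>
    mul_le_mul_left (ii_mono fun k => k.trans h) _) (mmb_le π τ h1 (h2.trans h))

lemma one_le_mm (x : V) (π : V → TX) (Γ : SimpleGraph V) (p : ℝ) (D : ℕ) :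
    1 ≤ mm π (tR Γ π p) D := by
  obtain ⟨q, -, hq⟩ := exists_far (π x) (π x) 1
  rw [dd_self, zero_add, dd_comm] at hq
  have h0 : dd (π x) (π x) ≤ D := by rw [dd_self]; omega
  refine le_trans ?_ ((ENNReal.le_tsum x).trans (mmb_le π _ hq h0))
  rw [ii_true h0, one_mul, tR, tau_self]

lemma mm_le_chi (π : V → TX) (Γ : SimpleGraph V) {p : ℝ} (h0 : 0 ≤ p) (h1 : p ≤ 1)
    (D : ℕ) : mm π (tR Γ π p) D ≤ chi Γ p := by
  refine mmb_ge π _ fun q u w _ _ => le_trans (ENNReal.tsum_le_tsum fun y => ?_)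
    (le_iSup (fun x => ∑' y, tau (wU p Γ.edgeSet) x y) w)
  exact (mul_le_of_le_one_left' (ii_le_one _)).trans
    (tau_mono_wU h0 le_rfl h1 (fun e he => he.1) _ _)

lemma mmb_out {p : ℝ} {R : Set TX} {w : V} (hw : π w ∉ R) (f : V → Prop) :
    ∑' v, ii (f v) * tR Γ π p R w v ≤ 1 := by
  rw [tsum_eq_single w fun v hv => ?_]
  · rw [tR, tau_self, mul_one]
    exact ii_le_one _
  · rw [tR, tau_zero (S := {w}) rfl hv fun a ha b _ => if_neg fun k =>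
      hw (ha ▸ k.2 a (Sym2.mem_mk_left a b)), mul_zero]

end

section
variable {V : Type*} {TX : Type*} [TrS TX]
variable {Γ : SimpleGraph V} {G : Type u} [Group G] [MulAction G V]
variable {ρ : G →* Equiv.Perm TX} {π : V → TX}


lemma Tj.orb_le_mm (hs : Tj Γ ρ π) (p : ℝ) {q u : TX} (hq : dd q u = 1)
    {N : Subgroup G} (hN : ∀ n ∈ N, ρ n u = u) {D : ℕ} {x y : V}
    (hx : dd (π x) u ≤ D) (hy : dd (π y) u ≤ D) :
    ∑' n : N, tR Γ π p (half q u) x ((n : G) • y) ≤ mm π (tR Γ π p) D := by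
  refine le_trans ?_ (mmb_le π _ hq hx)
  have hi : Function.Injective fun n : N => (n : G) • y := fun a b h => by
    have := hs.geom.free ((b : G)⁻¹ * a) y (by rw [mul_smul, inv_smul_eq_iff]; exact h)
    exact Subtype.ext (inv_mul_eq_one.1 this).symm
  refine le_trans (ENNReal.tsum_le_tsum fun n => ?_) (ENNReal.tsum_comp_le_tsum_of_injective hi
    fun w' => ii (dd (π w') u ≤ D) * tR Γ π p (half q u) x w')
  have h : dd (π ((n : G) • y)) u ≤ D := by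
    have := hs.act.iso n (π y) u
    rw [hN n n.2] at this
    rwa [hs.eqv, this]
  rw [ii_true h, one_mul]

theorem Tj.best (hs : Tj Γ ρ π) (D : ℕ)
    (cf : TX → TX → V → List TX) :
    ∃ (c₁ : ℕ) (Cs : Finset ((TX × TX) × V × V)),
      (∀ c ∈ Cs, dd c.1.1 c.1.2 = 1 ∧ π c.2.1 ∈ half c.1.1 c.1.2 ∧ dd (π c.2.1) c.1.2 ≤ D ∧
        dd (π c.2.2) c.1.2 ≤ D) ∧
      ∀ p, 0 ≤ p → p ≤ 1 → mm π (tR Γ π p) D ≤ c₁ ∨ ∃ c ∈ Cs, mm π (tR Γ π p) D ≤
        c₁ * ∑' n : fx ρ (c.1.2 :: c.1.1 :: cf c.1.1 c.1.2 c.2.1),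
          tR Γ π p (half c.1.1 c.1.2) c.2.1 ((n : G) • c.2.2) := by
  obtain ⟨Es, hE1, hE2⟩ := hs.act.edge_orb
  choose W hW1 hW2 using fun e : TX × TX => hs.near_orb e.2 [e.1] D
  choose U hU1 hU2 using fun (e : TX × TX) (w : V) =>
    hs.near_orb e.2 (e.1 :: cf e.1 e.2 w) D
  obtain ⟨Cs, hCs⟩ : ∃ Cs : Finset ((TX × TX) × V × V), ∀ c, c ∈ Cs ↔
      c.1 ∈ Es ∧ π c.2.1 ∈ half c.1.1 c.1.2 ∧ c.2.1 ∈ W c.1 ∧ c.2.2 ∈ U c.1 c.2.1 := by
    refine ⟨(Es.biUnion fun e => (W e).biUnion fun w => (U e w).image fun w' => (e, w, w')).filter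
      fun c => π c.2.1 ∈ half c.1.1 c.1.2, fun c => ?_⟩
    simp only [Finset.mem_filter, Finset.mem_biUnion, Finset.mem_image]
    constructor
    · rintro ⟨⟨e, he, w, hw, w', hw', rfl⟩, k⟩
      exact ⟨he, k, hw, hw'⟩
    · exact fun k => ⟨⟨c.1, k.1, c.2.1, k.2.2.1, c.2.2, k.2.2.2, rfl⟩, k.2.1⟩
  obtain ⟨K, hK⟩ : ∃ K : ℕ, ∀ e ∈ Es, ∀ w ∈ W e, (U e w).card ≤ K :=
    ⟨Es.sup fun e => (W e).sup fun w => (U e w).card, fun e he w hw =>
      (Finset.le_sup (f := fun w => (U e w).card) hw).trans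
        (Finset.le_sup (f := fun e => (W e).sup fun w => (U e w).card) he)⟩
  refine ⟨K + 1, Cs, fun c hc => ?_, fun p _ _ => ?_⟩
  · obtain ⟨a, b, c, d⟩ := (hCs c).1 hc
    exact ⟨hE1 _ a, b, hW1 _ _ c, hU1 _ _ _ d⟩
  have key : ∀ M : ℝ≥0∞, (∀ c ∈ Cs, ∑' n : fx ρ (c.1.2 :: c.1.1 :: cf c.1.1 c.1.2 c.2.1),
      tR Γ π p (half c.1.1 c.1.2) c.2.1 ((n : G) • c.2.2) ≤ M) →
      mm π (tR Γ π p) D ≤ max 1 (K * M) := by
    refine fun M hM => mmb_ge π _ fun q u w h1 h2 => ?_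
    obtain ⟨e, he, g, rfl, rfl⟩ := hE2 q u h1
    obtain ⟨w, rfl⟩ : ∃ w', w = g • w' := ⟨g⁻¹ • w, by simp⟩
    rw [hs.eqv, hs.act.iso] at h2
    obtain ⟨w, hw, n, hn, rfl⟩ := hW2 e w h2
    have e1 : ρ g e.1 = ρ (g * n) e.1 := by
      rw [map_mul, Equiv.Perm.mul_apply, hn e.1 (by simp)]
    have e2 : ρ g e.2 = ρ (g * n) e.2 := by
      rw [map_mul, Equiv.Perm.mul_apply, hn e.2 (by simp)]
    rw [e1, e2, ← mul_smul]
    generalize g * n = h
    have e3 : {v | ρ h v ∈ half (ρ h e.1) (ρ h e.2)} = half e.1 e.2 :=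
      Set.ext fun v => hs.act.half_smul
    rw [← (MulAction.toPerm h).tsum_eq]
    simp only [MulAction.toPerm_apply, hs.tR_smul, hs.eqv, hs.act.iso, e3]
    by_cases hh : π w ∈ half e.1 e.2
    · refine le_max_of_le_right ((mmb_in _ _ _ (hU2 e w)).trans ?_)
      refine (Finset.sum_le_card_nsmul _ _ _ fun w' hw' =>
        hM (e, w, w') ((hCs _).2 ⟨he, hh, hw, hw'⟩)).trans ?_
      rw [nsmul_eq_mul]
      exact mul_le_mul_left (by exact_mod_cast hK e he w hw) _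
    · exact le_max_of_le_left (mmb_out hh _)
  have h1 : (1 : ℝ≥0∞) ≤ (K + 1 : ℕ) := by exact_mod_cast Nat.le_add_left _ _
  rcases Cs.eq_empty_or_nonempty with h | h
  · left
    have := key 0 (by simp [h])
    rw [mul_zero, max_eq_left zero_le] at this
    exact this.trans h1
  · obtain ⟨c, hc, hm⟩ := Cs.exists_max_image
      (fun c => ∑' n : fx ρ (c.1.2 :: c.1.1 :: cf c.1.1 c.1.2 c.2.1),
        tR Γ π p (half c.1.1 c.1.2) c.2.1 ((n : G) • c.2.2)) h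
    rcases le_max_iff.1 (key _ hm) with k | k
    · exact Or.inl (k.trans h1)
    · exact Or.inr ⟨c, hc, k.trans (mul_le_mul_left (by exact_mod_cast Nat.le_succ _) _)⟩

end

section
variable {V : Type*} {TX : Type*} [TrS TX]
variable {Γ : SimpleGraph V} {G : Type u} [Group G] [MulAction G V]
variable {π : V → TX}

lemma har_ball {q u x s : TX} (hq : dd q u = 1) (hx : x ∈ half q u)
    (h : dd x s < dd x u) : s ∈ half q u := by
  rw [geo_half hq] at hx ⊢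
  by_contra hs
  have e := cone_cut hs hx
  rw [dd_comm s x, dd_comm u x] at e
  omega

lemma har_join {r n : ℕ} (hst : ∀ (x : V) (t : TX),
    dd (π x) t ≤ 1 → ∃ (z : V) (P : Finset (Sym2 V)), π z = t ∧
      (P : Set (Sym2 V)) ⊆ inE Γ (π ⁻¹' {s | dd (π x) s ≤ r}) ∧ P.card ≤ n ∧
      ∀ ω : Set (Sym2 V), (P : Set (Sym2 V)) ⊆ ω → Conn ω x z)
    {q u : TX} (hq : dd q u = 1) (d : ℕ) : ∀ x : V, π x ∈ half q u → dd (π x) u ≤ d →
    ∃ (z : V) (P : Finset (Sym2 V)), dd (π z) u ≤ r + 1 ∧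
      (P : Set (Sym2 V)) ⊆ inE Γ (π ⁻¹' half q u) ∧ P.card ≤ n * d ∧
      ∀ ω : Set (Sym2 V), (P : Set (Sym2 V)) ⊆ ω → Conn ω x z := by
  induction d with
  | zero =>
    intro x _ hd
    exact ⟨x, ∅, by omega, by simp, by simp, fun ω _ => Conn.refl _ _⟩
  | succ d ih =>
    intro x hx hd
    by_cases h : dd (π x) u ≤ r + 1
    · exact ⟨x, ∅, h, by simp, by simp, fun ω _ => Conn.refl _ _⟩
    have e0 := dd_comm u (π x)
    obtain ⟨t, ht, ht'⟩ := exists_pre u (π x) (j := dd u (π x) - 1) (Nat.sub_le _ _)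
    rw [geo_mem] at ht'
    have e1 := dd_comm t (π x)
    have e2 := dd_comm t u
    obtain ⟨z, P, hz, hP, hc, hconn⟩ := hst x t (by omega)
    obtain ⟨z', P', hz', hP', hc', hconn'⟩ := ih z
      (by rw [hz]; exact har_ball hq hx (by omega)) (by rw [hz]; omega)
    refine ⟨z', P ∪ P', hz', ?_, ?_, fun ω hω => ?_⟩
    · rw [Finset.coe_union]
      refine Set.union_subset (hP.trans ?_) hP'
      refine inE_mono fun v hv => har_ball hq hx ?_
      have hv' : dd (π x) (π v) ≤ r := hv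
      omega
    · have := Finset.card_union_le P P'
      rw [Nat.mul_succ]
      omega
    · rw [Finset.coe_union, Set.union_subset_iff] at hω
      exact Conn.trans (hconn ω hω.1) (hconn' ω hω.2)

end

section
variable {V : Type*} {TX : Type*} [TrS TX]
variable {Γ : SimpleGraph V} {G : Type u} [Group G] [MulAction G V]
variable {ρ : G →* Equiv.Perm TX} {π : V → TX}

lemma harT_join {r n : ℕ} (hst : ∀ (x : V) (t : TX),
    ∃ (z : V) (P : Finset (Sym2 V)), dd (π z) t ≤ r ∧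
      (P : Set (Sym2 V)) ⊆ inE Γ (π ⁻¹' {s | ∃ s', t ∈ cone (π x) s' ∧ dd s' s ≤ r}) ∧
      P.card ≤ n * dd (π x) t ∧
      ∀ ω : Set (Sym2 V), (P : Set (Sym2 V)) ⊆ ω → Conn ω x z)
    {q u : TX} (hq : dd q u = 1) (d : ℕ) (x : V) (hx : π x ∈ half q u)
    (hd : dd (π x) u ≤ d) :
    ∃ (z : V) (P : Finset (Sym2 V)), dd (π z) u ≤ 2 * r + 1 ∧
      (P : Set (Sym2 V)) ⊆ inE Γ (π ⁻¹' half q u) ∧ P.card ≤ n * d ∧
      ∀ ω : Set (Sym2 V), (P : Set (Sym2 V)) ⊆ ω → Conn ω x z := by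
  by_cases h : dd (π x) u ≤ 2 * r + 1
  · exact ⟨x, ∅, h, by simp, by simp, fun ω _ => Conn.refl _ _⟩
  obtain ⟨t, ht, ht'⟩ := exists_pre (π x) u (j := dd (π x) u - (r + 1)) (Nat.sub_le _ _)
  rw [geo_mem] at ht'
  obtain ⟨z, P, hz, hP, hc, hconn⟩ := hst x t
  refine ⟨z, P, ?_, hP.trans (inE_mono fun v hv => har_ball hq hx ?_),
    hc.trans (Nat.mul_le_mul_left _ (by omega)), hconn⟩
  · have := dd_tri (π z) t u
    omega
  · obtain ⟨s', h1, h2⟩ := hv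
    rw [geo_mem] at h1
    have := dd_tri (π x) s' (π v)
    omega

lemma harT_half (hs : Tj Γ ρ π) {q u : TX} {m : G} (hm : m ∈ fx ρ [u, q])
    (v : TX) : ρ m v ∈ half q u ↔ v ∈ half q u := by
  have h1 : ρ m u = u := hm u (by simp)
  have h2 : ρ m q = q := hm q (by simp)
  change dd (ρ m v) u < dd (ρ m v) q ↔ dd v u < dd v q
  rw [← hs.act.iso m v u, ← hs.act.iso m v q, h1, h2]

lemma harT_ker (hs : Tj Γ ρ π) (p : ℝ) {q u : TX} {m : G} (hm : m ∈ fx ρ [u, q])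
    (x y : V) : tR Γ π p (half q u) x (m • y) = tR Γ π p (half q u) y (m⁻¹ • x) := by
  have h := hs.tR_smul p (half q u) m y (m⁻¹ • x)
  have e : {v | ρ m v ∈ half q u} = half q u := Set.ext fun v => harT_half hs hm v
  rw [smul_inv_smul, e] at h
  rw [← h]
  exact tau_symm _ _ _

theorem Tj.har (hs : Tj Γ ρ π) {p₀ : ℝ} (hp₀ : 0 < p₀) :
    ∃ D₀, HarP Γ π p₀ D₀ := by
  obtain ⟨r, n, hst⟩ := hs.walk
  refine ⟨2 * r + 1, fun D => ?_⟩
  obtain ⟨c₁, Cs, hCs, hb⟩ := hs.best D (fun _ _ _ => [])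
  obtain ⟨o⟩ := hs.geom.conn.nonempty
  set a : ℝ≥0∞ := ENNReal.ofReal (p₀ ^ (n * D)) with ha
  have a0 : a ≠ 0 := (ENNReal.ofReal_pos.2 (pow_pos hp₀ _)).ne'
  have a1 : a ≠ ⊤ := ENNReal.ofReal_ne_top
  have aa0 : a * a ≠ 0 := mul_ne_zero a0 a0
  have aa1 : a * a ≠ ⊤ := ENNReal.mul_ne_top a1 a1
  refine ⟨c₁ * (1 + (a * a)⁻¹), ENNReal.mul_ne_top (ENNReal.natCast_ne_top _)
    (ENNReal.add_ne_top.2 ⟨ENNReal.one_ne_top, ENNReal.inv_ne_top.2 aa0⟩), fun p hp h1 => ?_⟩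
  have h0 : 0 ≤ p := hp₀.le.trans hp
  have hap : ∀ k, k ≤ n * D → a ≤ ENNReal.ofReal (p ^ k) := fun k hk =>
    ENNReal.ofReal_le_ofReal ((pow_le_pow_left₀ hp₀.le hp _).trans (pow_le_pow_of_le_one h0 h1 hk))
  rcases hb p h0 h1 with h | ⟨c, hc, h⟩
  · refine h.trans ?_
    rw [mul_assoc]
    exact le_mul_of_one_le_right' (one_le_mul le_self_add (one_le_mm o π Γ p _))
  refine h.trans ?_
  rw [mul_assoc]
  refine mul_le_mul_right ?_ _
  obtain ⟨hq, hx, hxD, hyD⟩ := hCs c hc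
  by_cases hy : π c.2.2 ∈ half c.1.1 c.1.2
  · obtain ⟨z, P, hz, hP, hPc, hPz⟩ := harT_join hst hq D _ hx hxD
    obtain ⟨z', P', hz', hP', hPc', hPz'⟩ := harT_join hst hq D _ hy hyD
    have key : a * a * ∑' m : fx ρ [c.1.2, c.1.1],
        tR Γ π p (half c.1.1 c.1.2) c.2.1 ((m : G) • c.2.2) ≤ mm π (tR Γ π p) (2 * r + 1) := by
      refine le_trans ?_ (hs.orb_le_mm p hq (N := fx ρ [c.1.2, c.1.1])
        (fun m hm => hm _ (by simp)) hz hz')
      rw [← ENNReal.tsum_mul_left]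
      refine ENNReal.tsum_le_tsum fun m => ?_
      have k1 : a * tR Γ π p (half c.1.1 c.1.2) c.2.1 ((m : G) • c.2.2) ≤
          tR Γ π p (half c.1.1 c.1.2) z ((m : G) • c.2.2) :=
        (mul_le_mul_left (hap _ hPc) _).trans (tau_harris h0 h1 hP hPz _)
      have k2 : a * tR Γ π p (half c.1.1 c.1.2) c.2.2 ((m : G)⁻¹ • z) ≤
          tR Γ π p (half c.1.1 c.1.2) z' ((m : G)⁻¹ • z) :=
        (mul_le_mul_left (hap _ hPc') _).trans (tau_harris h0 h1 hP' hPz' _)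
      rw [← harT_ker hs p m.2, ← harT_ker hs p m.2] at k2
      rw [mul_assoc]
      exact (mul_le_mul_right k1 _).trans k2
    refine le_trans ?_ (mul_le_mul_left le_add_self _)
    refine le_trans ?_ (mul_le_mul_right key _)
    rw [← mul_assoc, ENNReal.inv_mul_cancel aa0 aa1, one_mul]
  · have hz : ∀ m : fx ρ [c.1.2, c.1.1],
        tR Γ π p (half c.1.1 c.1.2) c.2.1 ((m : G) • c.2.2) = 0 := by
      intro m
      refine tau_zero (S := π ⁻¹' half c.1.1 c.1.2) hx ?_ fun a _ b hb => ?_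
      · rw [Set.mem_preimage, hs.eqv, harT_half hs m.2]
        exact hy
      · exact if_neg fun he => hb (he.2 b (Sym2.mem_mk_right a b))
    simp [hz]

end

end Vale.Agent.P165T
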