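import Vale.Agent.P165T.PC

open Classical
open scoped ENNReal

namespace Vale.Agent.P165T

open Vale.Agent.P151 Vale.Agent.P165

universe u

section
variable {V : Type*} {TX : Type*} [TrS TX]

variable {Γ : SimpleGraph V} {G : Type u} [Group G] [MulAction G V]

end

section
variable {V : Type*} {TX : Type*} [TrS TX]

variable {Γ : SimpleGraph V} {G : Type u} [Group G] [MulAction G V]

lemma low2_fin (π : V → TX) (s : Finset TX) (s' : Finset V)
    (d : ℕ) : {t : (TX × TX) × V × TX × TX |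
      t.1.2 ∈ s ∧ dd t.1.1 t.1.2 = 1 ∧ t.2.1 ∈ s' ∧ dd (π t.2.1) t.2.2.2 ≤ d ∧
        dd t.2.2.1 t.2.2.2 = 1}.Finite := by
  have h1 : (⋃ u ∈ (s : Set TX), {v | dd u v ≤ 1}).Finite :=
    s.finite_toSet.biUnion fun u _ => ball_fin u 1
  have h2 : (⋃ x ∈ (s' : Set V), {v | dd (π x) v ≤ d + 1}).Finite :=
    s'.finite_toSet.biUnion fun x _ => ball_fin (π x) (d + 1)
  refine ((h1.prod s.finite_toSet).prod (s'.finite_toSet.prod (h2.prod h2))).subset ?_
  rintro ⟨⟨q, u⟩, x, q', u'⟩ ⟨a1, a2, a3, a4, a5⟩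
  simp only at a1 a2 a3 a4 a5
  refine ⟨⟨?_, a1⟩, a3, ?_, ?_⟩
  · exact Set.mem_biUnion a1 (by rw [Set.mem_ofPred_eq, dd_comm]; exact a2.le)
  · refine Set.mem_biUnion a3 ?_
    have := dd_tri (π x) u' q'
    rw [dd_comm u' q'] at this
    show dd (π x) q' ≤ d + 1
    omega
  · refine Set.mem_biUnion a3 ?_
    show dd (π x) u' ≤ d + 1
    omega

end

section
variable {V : Type*} {TX : Type*} [TrS TX]
variable {Γ : SimpleGraph V} {G : Type u} [Group G] [MulAction G V]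
variable {π : V → TX}

end

section
variable {V : Type*} {TX : Type*} [TrS TX]
variable {Γ : SimpleGraph V} {G : Type u} [Group G] [MulAction G V]
variable {ρ : G →* Equiv.Perm TX} {π : V → TX}

lemma LowGT_one (hs : Tj Γ ρ π) {p₀ : ℝ} (hp₀ : 0 < p₀) (d : ℕ)
    {q u q' u' : TX} (hq : dd q u = 1) (hq' : dd q' u' = 1) {x' : V}
    (hx' : π x' ∈ half u' q') :
    ∃ (D : ℕ) (A : ℝ≥0∞), A ≠ ⊤ ∧ ∀ p, p₀ ≤ p → p ≤ 1 → ∀ (x : V) (R : Set TX),
      R ⊆ half u q →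
      (∑' w, ii (dd (π w) u ≤ d) * tR Γ π p R x w) * (∑' y, tR Γ π p (half u' q') x' y)
        ≤ A * mm π (tR Γ π p) D * ∑' y, ii (π y ∈ half q u) * tR Γ π p Set.univ x y := by
  have hG := hs.geom
  obtain ⟨g, hg₀⟩ := hs.act.irr q u u' q' hq (by rw [dd_comm, hq'])
  obtain ⟨W, hW0, hW⟩ := hs.near_orb u [q] d
  choose Q hQ hQc using exists_path hG.conn
  have ha : ∀ w, ENNReal.ofReal (p₀ ^ (2 * (Q w (g • x')).card)) ≠ 0 := fun w => by
    simpa using pow_pos hp₀ _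
  have ku : ∀ m ∈ fx ρ [u, q], ρ m u = u := fun m hm => hm u (by simp)
  have kq : ∀ m ∈ fx ρ [u, q], ρ m q = q := fun m hm => hm q (by simp)
  have hku : ∀ (m : fx ρ [u, q]) (v : V), dd (π ((m : G) • v)) u = dd (π v) u := fun m v => by
    have := hs.act.iso m (π v) u
    rwa [ku m m.2, ← hs.eqv] at this
  have hkq : ∀ (m : fx ρ [u, q]) (v : V), dd (π ((m : G) • v)) q = dd (π v) q := fun m v => by
    have := hs.act.iso m (π v) q
    rwa [kq m m.2, ← hs.eqv] at this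
  have hk : ∀ (m : fx ρ [u, q]) (v : TX), ρ m v ∈ half q u ↔ v ∈ half q u := fun m v => by
    have := hs.act.half_smul (g := m) (s := q) (t := u) (v := v)
    rwa [ku m m.2, kq m m.2] at this
  have hx'' : π (g • x') ∈ half q u := by rw [hs.eqv]; exact hg₀ _ hx'
  refine ⟨max (d + 1) (dd (π (g • x')) u),
    ∑ w ∈ W, (ENNReal.ofReal (p₀ ^ (2 * (Q w (g • x')).card)))⁻¹ * 9, ?_, ?_⟩
  · exact ENNReal.sum_ne_top.2 fun w _ =>
      ENNReal.mul_ne_top (ENNReal.inv_ne_top.2 (ha w)) (by simp)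
  intro p hp hp1 x R hR
  have h0 : 0 ≤ p := hp₀.le.trans hp
  set μ := mm π (tR Γ π p) (max (d + 1) (dd (π (g • x')) u)) with hμ
  set c := ∑' y, ii (π y ∈ half q u) * tR Γ π p (half q u) (g • x') y with hc
  have hc1 : ∑' y, tR Γ π p (half u' q') x' y ≤ c := by
    calc _ ≤ ∑' y, tR Γ π p (half q u) (g • x') y := by
          rw [low2_tsum g (tR Γ π p (half q u) (g • x'))]
          refine ENNReal.tsum_le_tsum fun y => ?_
          rw [hs.tR_smul]
          exact tau_mono_wU h0 le_rfl hp1 (Low1_inE fun v hv => hg₀ (π v) hv) _ _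
      _ ≤ c := by
          refine ENNReal.tsum_le_tsum fun y => ?_
          by_cases hy : π y ∈ half q u
          · rw [ii_true hy, one_mul]
          · have : tR Γ π p (half q u) (g • x') y = 0 :=
              tau_zero (S := π ⁻¹' half q u) hx'' hy
                fun a _ b hb => if_neg fun he => hb (he.2 b (by simp))
            rw [this]
            exact zero_le
  have key : ∀ w ∈ W, (∑' m : fx ρ [u, q], tR Γ π p R x ((m : G) • w)) * c ≤
      (ENNReal.ofReal (p₀ ^ (2 * (Q w (g • x')).card)))⁻¹ * 9 * μ *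
        ∑' y, ii (π y ∈ half q u) * tR Γ π p Set.univ x y := fun w hw => by
    choose P hP hPc hPw using fun m : fx ρ [u, q] => path_smul hG (m : G) (hQ w (g • x'))
    have hwq : dd (π w) q ≤ max (d + 1) (dd (π (g • x')) u) := by
      have h1 := dd_tri (π w) u q
      have h2 := hW0 w hw
      rw [dd_comm u q] at h1
      omega
    have hsel := glue2 h0 hp1 (U := inE Γ (π ⁻¹' Set.univ)) (U₁ := inE Γ (π ⁻¹' R))
      (U₂ := inE Γ (π ⁻¹' half q u)) (Low1_inE fun _ _ => trivial) (Low1_inE fun _ _ => trivial)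
      (Set.disjoint_left.2 fun e h1 h2 =>
        lt_asymm (show dd _ _ < dd _ _ from hR (h1.2 _ e.out_fst_mem))
          (show dd _ _ < dd _ _ from h2.2 _ e.out_fst_mem))
      x (fun m : fx ρ [u, q] => (m : G) • w) (fun m : fx ρ [u, q] => (m : G) • g • x') P
      (fun m => by rw [Set.preimage_univ, inE_univ]; exact hP m) hPc
      (fun m => hPw m _ _ (hQc _ _)) {y | π y ∈ half q u} c μ
      (fun m => by
        rw [low2_tsum (m : G)]
        refine le_of_eq (tsum_congr fun y => ?_)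
        have e := hs.tR_smul p (half q u) (m : G) (g • x') y
        simp only [hk, Set.setOf_mem_eq] at e
        rw [← e, Set.mem_setOf_eq, hs.eqv, ii_congr (hk m (π y))]
        rfl)
      (fun m => le_trans (ENNReal.tsum_le_tsum fun m' =>
          tau_mono_wU h0 le_rfl hp1 (Low1_inE (S' := π ⁻¹' half u q) fun v hv => hR hv) _ _)
        (hs.orb_le_mm p (q := u) (u := q) (by rw [dd_comm, hq]) kq (by rw [hkq]; exact hwq) hwq))
      (fun m => hs.orb_le_mm p hq ku (by rw [hku]; exact le_max_right _ _) (le_max_right _ _))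
    have hpp : ENNReal.ofReal (p₀ ^ (2 * (Q w (g • x')).card)) ≤
        ENNReal.ofReal (p ^ (2 * (Q w (g • x')).card)) :=
      ENNReal.ofReal_le_ofReal (pow_le_pow_left₀ hp₀.le hp _)
    have h2 := (mul_le_mul_left hpp _).trans hsel
    calc _ = (ENNReal.ofReal (p₀ ^ (2 * (Q w (g • x')).card)))⁻¹ *
          (ENNReal.ofReal (p₀ ^ (2 * (Q w (g • x')).card)) *
            ((∑' m : fx ρ [u, q], tR Γ π p R x ((m : G) • w)) * c)) := by
          rw [← mul_assoc _ (ENNReal.ofReal _),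
            ENNReal.inv_mul_cancel (ha w) ENNReal.ofReal_ne_top, one_mul]
      _ ≤ _ := by
          rw [mul_assoc _ 9, mul_assoc _ (9 * μ)]
          exact mul_le_mul_right h2 _
  have hsum : ∑' w, ii (dd (π w) u ≤ d) * tR Γ π p R x w ≤
      ∑ w ∈ W, ∑' m : fx ρ [u, q], tR Γ π p R x ((m : G) • w) := by
    calc _ ≤ ∑' y, ∑ w ∈ W, ∑' m : fx ρ [u, q], ii (y = (m : G) • w) * tR Γ π p R x y := by
          refine ENNReal.tsum_le_tsum fun y => ?_
          by_cases hy : dd (π y) u ≤ d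
          · obtain ⟨w, hw, m, hm0, hm⟩ := hW y hy
            refine le_trans ?_ (Finset.single_le_sum (f := fun w => ∑' m : fx ρ [u, q],
              ii (y = (m : G) • w) * tR Γ π p R x y) (fun _ _ => zero_le) hw)
            refine le_trans ?_ (ENNReal.le_tsum ⟨m, hm0⟩)
            rw [ii_true hy, ii_true hm]
          · rw [ii_false hy, zero_mul]
            exact zero_le
      _ = _ := by
          rw [Summable.tsum_finsetSum fun _ _ => ENNReal.summable]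
          refine Finset.sum_congr rfl fun w _ => ?_
          rw [ENNReal.tsum_comm]
          refine tsum_congr fun m => ?_
          rw [tsum_eq_single ((m : G) • w) fun y hy => by rw [ii_false hy, zero_mul],
            ii_true rfl, one_mul]
  refine (mul_le_mul' hsum hc1).trans ?_
  rw [Finset.sum_mul, Finset.sum_mul, Finset.sum_mul]
  exact Finset.sum_le_sum key

theorem Tj.low_gen (hs : Tj Γ ρ π) {p₀ : ℝ} (hp₀ : 0 < p₀) (d₁ d₂ : ℕ) :
    ∃ (D : ℕ) (A : ℝ≥0∞), A ≠ ⊤ ∧ ∀ p, p₀ ≤ p → p ≤ 1 →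
      Low2 π (tR Γ π p) d₁ d₂ (A * mm π (tR Γ π p) D) := by
  obtain ⟨s', hs'⟩ := hs.geom.cof
  obtain ⟨s, hs0⟩ := hs.act.cof
  have key : ∀ (t : (TX × TX) × V × TX × TX),
      ∃ (D : ℕ) (A : ℝ≥0∞), A ≠ ⊤ ∧ (dd t.1.1 t.1.2 = 1 → dd t.2.2.1 t.2.2.2 = 1 →
        π t.2.1 ∈ half t.2.2.2 t.2.2.1 → ∀ p, p₀ ≤ p → p ≤ 1 →
        ∀ (x : V) (R : Set TX), R ⊆ half t.1.2 t.1.1 →
        (∑' w, ii (dd (π w) t.1.2 ≤ d₁) * tR Γ π p R x w) *
            (∑' y, tR Γ π p (half t.2.2.2 t.2.2.1) t.2.1 y)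
          ≤ A * mm π (tR Γ π p) D *
            ∑' y, ii (π y ∈ half t.1.1 t.1.2) * tR Γ π p Set.univ x y) := by
    intro t
    by_cases h : dd t.1.1 t.1.2 = 1 ∧ dd t.2.2.1 t.2.2.2 = 1 ∧ π t.2.1 ∈ half t.2.2.2 t.2.2.1
    · obtain ⟨D, K, hK, h'⟩ := LowGT_one hs hp₀ d₁ h.1 h.2.1 h.2.2
      exact ⟨D, K, hK, fun _ _ _ => h'⟩
    · exact ⟨0, 0, ENNReal.zero_ne_top, fun a b c => absurd ⟨a, b, c⟩ h⟩
  choose D K hK hK' using key
  refine ⟨(low2_fin π s s' d₂).toFinset.sup D, ∑ t ∈ (low2_fin π s s' d₂).toFinset, K t,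
    ENNReal.sum_ne_top.2 fun t _ => hK t, fun p h0 h1 => ?_⟩
  intro r u r' u' x x' R hr hr' hR hd hx'
  obtain ⟨q, hq, e1, e0⟩ := cone_half hr
  obtain ⟨q', hq', -, e2⟩ := cone_half hr'
  obtain ⟨g, hg⟩ := hs0 u
  obtain ⟨g', hg'⟩ := hs' x'
  have hx'' : π x' ∈ half u' q' := by rw [← e2]; exact hx'
  have hR' : R ⊆ half u q := by rw [← e0]; exact hR.subset_compl_right
  rw [e1, e2]
  let t : (TX × TX) × V × TX × TX :=
    ((ρ g q, ρ g u), g' • x', ρ g' q', ρ g' u')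
  have t1 : dd (ρ g q) (ρ g u) = 1 := by rw [hs.act.iso]; exact hq
  have t2 : dd (ρ g' q') (ρ g' u') = 1 := by rw [hs.act.iso]; exact hq'
  have ht : t ∈ (low2_fin π s s' d₂).toFinset := by
    rw [Set.Finite.mem_toFinset]
    refine ⟨hg, t1, hg', ?_, t2⟩
    show dd (π (g' • x')) (ρ g' u') ≤ d₂
    rw [hs.eqv, hs.act.iso]; exact hd
  have t3 : π (g' • x') ∈ half (ρ g' u') (ρ g' q') := by
    rw [hs.eqv, hs.act.half_smul]; exact hx''
  have t4 : ρ g '' R ⊆ half (ρ g u) (ρ g q) := by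
    rintro _ ⟨v, hv, rfl⟩
    exact hs.act.half_smul.2 (hR' hv)
  have main := hK' t t1 t2 t3 p h0 h1 (g • x) (ρ g '' R) t4
  have a1 : ∑' w, ii (dd (π w) (ρ g u) ≤ d₁) * tR Γ π p (ρ g '' R) (g • x) w =
      ∑' w, ii (dd (π w) u ≤ d₁) * tR Γ π p R x w := by
    rw [low2_tsum g]
    refine tsum_congr fun w => ?_
    have : {v | ρ g v ∈ ρ g '' R} = R := by
      ext v
      exact (ρ g).injective.mem_set_image
    rw [hs.tR_smul, hs.eqv, hs.act.iso, this]
  have a2 : ∑' y, tR Γ π p (half (ρ g' u') (ρ g' q')) (g' • x') y =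
      ∑' y, tR Γ π p (half u' q') x' y := by
    rw [low2_tsum g']
    refine tsum_congr fun w => ?_
    have : {v | ρ g' v ∈ half (ρ g' u') (ρ g' q')} = half u' q' := by
      ext v
      exact hs.act.half_smul
    rw [hs.tR_smul, this]
  have a3 : ∑' y, ii (π y ∈ half (ρ g q) (ρ g u)) * tR Γ π p Set.univ (g • x) y =
      ∑' y, ii (π y ∈ half q u) * tR Γ π p Set.univ x y := by
    rw [low2_tsum g]
    refine tsum_congr fun w => ?_
    rw [hs.tR_smul, hs.eqv, ii_congr hs.act.half_smul]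
    rfl
  simp only [t] at main
  rw [a1, a2, a3] at main
  refine main.trans (mul_le_mul_left (mul_le_mul' ?_ (mm_mono _ _ (Finset.le_sup ht))) _)
  exact Finset.single_le_sum (f := K) (fun _ _ => zero_le) ht

end

section
variable {V : Type*} {TX : Type*} [TrS TX]
variable {Γ : SimpleGraph V} {G : Type u} [Group G] [MulAction G V]
variable {π : V → TX}


lemma Ker.monoK {τ : Set TX → V → V → ℝ≥0∞} {L Δ : ℕ} {K K' : ℕ → ℝ≥0∞}
    (h : Ker Γ π τ L Δ K) (hK : ∀ d, K d ≤ K' d) : Ker Γ π τ L Δ K' :=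
  ⟨h.lip, h.deg, h.mono, h.supp, h.one, h.up,
    fun d r u r' u' x x' R h1 h2 h3 h4 h5 =>
      (h.low d r u r' u' x x' R h1 h2 h3 h4 h5).trans (mul_le_mul_left (hK d) _), h.fin⟩

lemma LowQ_mono {τ : Set TX → V → V → ℝ≥0∞} {d₁ d₂ d : ℕ} {K K' : ℝ≥0∞}
    (h : Low2 π τ d₁ d₂ K) (hd : d ≤ d₂) (hK : K ≤ K') : Low2 π τ d₁ d K' :=
  fun r u r' u' x x' R h1 h2 h3 h4 h5 =>
    (h r u r' u' x x' R h1 h2 h3 (h4.trans hd) h5).trans (mul_le_mul_left hK _)

end

section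
variable {V : Type*} {TX : Type*} [TrS TX]
variable {Γ : SimpleGraph V} {G : Type u} [Group G] [MulAction G V]
variable {ρ : G →* Equiv.Perm TX} {π : V → TX}

lemma LowQT_base (hs : Tj Γ ρ π) {p₀ : ℝ} (hp₀ : 0 < p₀) {D₀ : ℕ}
    (hH : HarP Γ π p₀ D₀) (d₁ d₂ : ℕ) : ∃ C : ℝ≥0∞, C ≠ ⊤ ∧ ∀ p, p₀ ≤ p → p ≤ 1 →
      Low2 π (tR Γ π p) d₁ d₂ (C * mm π (tR Γ π p) D₀) := by
  obtain ⟨D, A, hA, h⟩ := hs.low_gen hp₀ d₁ d₂
  obtain ⟨C, hC, h'⟩ := hH D
  refine ⟨A * C, ENNReal.mul_ne_top hA hC, fun p h0 h1 => LowQ_mono (h p h0 h1) le_rfl ?_⟩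
  rw [mul_assoc]
  exact mul_le_mul_right (h' p h0 h1) _

theorem Tj.ker2 (hs : Tj Γ ρ π) {p₀ : ℝ} (hp₀ : 0 < p₀) {D₀ : ℕ}
    (hH : HarP Γ π p₀ D₀) (L₀ : ℕ) :
    ∃ (L Δ : ℕ) (C : ℕ → ℝ≥0∞), L₀ ≤ L ∧ (∀ d, C d ≠ ⊤) ∧ ∀ p, p₀ ≤ p → p ≤ 1 → chi Γ p ≠ ⊤ →
      Ker Γ π (tR Γ π p) L Δ (fun d => C d * mm π (tR Γ π p) D₀) := by
  obtain ⟨L, hL⟩ := hs.lip
  obtain ⟨Δ, hΔ⟩ := exists_deg hs.geom
  choose C hC hlow using fun d => LowQT_base hs hp₀ hH d d
  refine ⟨max L₀ L, Δ, C, le_max_left _ _, hC, fun p h0 h1 hc => ?_⟩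
  have h2 : 0 ≤ p := hp₀.le.trans h0
  refine ⟨fun a b hab => (hL a b hab).trans (le_max_right _ _), deg_tsum hΔ,
    fun R R' x y h => ?_, KerP_supp π p, fun R x => (tau_self _ x).ge,
    tR_up π h2 h1, fun d => hlow d p h0 h1, ?_⟩
  · exact tau_mono_wU h2 le_rfl h1 (inE_mono (Set.preimage_mono h)) x y
  · simpa only [tR, Set.preimage_univ, inE_univ, chi] using hc

theorem Tj.low_q (hs : Tj Γ ρ π) {p₀ : ℝ} (hp₀ : 0 < p₀) {D₀ : ℕ}
    (hH : HarP Γ π p₀ D₀) (d₁ : ℕ) :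
    ∃ A : ℝ≥0∞, 1 ≤ A ∧ A ≠ ⊤ ∧ ∀ p, p₀ ≤ p → p ≤ 1 → ∀ d,
      Low2 π (tR Γ π p) d₁ d (A ^ (d + 1) * mm π (tR Γ π p) D₀) := by
  obtain ⟨r, n, hwalk⟩ := hs.walk
  obtain ⟨C, hC, hlow⟩ := LowQT_base hs hp₀ hH d₁ (2 * r + 1)
  set b : ℝ≥0∞ := ENNReal.ofReal (p₀ ^ n) with hb
  have b0 : b ≠ 0 := (ENNReal.ofReal_pos.2 (pow_pos hp₀ n)).ne'
  have bt : b ≠ ⊤ := ENNReal.ofReal_ne_top
  set A : ℝ≥0∞ := max 1 (max C b⁻¹) with hA
  have A1 : 1 ≤ A := le_max_left _ _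
  have AC : C ≤ A := (le_max_left _ _).trans (le_max_right _ _)
  have Ab : b⁻¹ ≤ A := (le_max_right _ _).trans (le_max_right _ _)
  have At : A ≠ ⊤ := max_ne_top ENNReal.one_ne_top (max_ne_top hC (ENNReal.inv_ne_top.2 b0))
  refine ⟨A, A1, At, fun p h0 h1 d => ?_⟩
  have h2 : 0 ≤ p := hp₀.le.trans h0
  intro s u r' u' x x' R k1 k2 k3 k4 k5
  by_cases hx : dd (π x') u' ≤ 2 * r + 1
  · exact (hlow p h0 h1 s u r' u' x x' R k1 k2 k3 hx k5).trans (mul_le_mul_left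
      (mul_le_mul_left (AC.trans (le_self_pow A1 (Nat.succ_ne_zero d))) _) _)
  obtain ⟨t, ht, hu⟩ := exists_pre (π x') u' (j := dd (π x') u' - (r + 1)) (by omega)
  rw [geo_mem] at hu
  obtain ⟨z, P, hz, hP, hn, hc⟩ := hwalk x' t
  have out : ∀ v s', t ∈ cone (π x') s' → dd s' v ≤ r → v ∉ cone r' u' := by
    intro v s' hs' hv hm
    have e1 := cone_cut k5 hm
    have e2 := dd_tri (π x') s' v
    rw [geo_mem] at hs'
    omega
  have hP' : (P : Set (Sym2 V)) ⊆ inE Γ (π ⁻¹' (cone r' u')ᶜ) :=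
    hP.trans (inE_mono (Set.preimage_mono fun v ⟨s', a1, a2⟩ => out v s' a1 a2))
  have hn' : P.card ≤ n * d := hn.trans (Nat.mul_le_mul_left n (by omega))
  have hy : ∀ y, tR Γ π p (cone r' u')ᶜ x' y ≤ A ^ d * tR Γ π p (cone r' u')ᶜ z y := by
    intro y
    have e1 := tau_harris h2 h1 hP' hc y
    have e2 : b ^ d ≤ ENNReal.ofReal (p ^ P.card) := by
      rw [hb, ← ENNReal.ofReal_pow (pow_pos hp₀ n).le, ← pow_mul]
      exact ENNReal.ofReal_le_ofReal
        ((pow_le_pow_left₀ hp₀.le h0 _).trans (pow_le_pow_of_le_one h2 h1 hn'))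
    have e3 : b ^ d * tR Γ π p (cone r' u')ᶜ x' y ≤ tR Γ π p (cone r' u')ᶜ z y :=
      (mul_le_mul_left e2 _).trans e1
    calc tR Γ π p (cone r' u')ᶜ x' y = b⁻¹ ^ d * (b ^ d * tR Γ π p (cone r' u')ᶜ x' y) := by
          rw [← mul_assoc, ← mul_pow, ENNReal.inv_mul_cancel b0 bt, one_pow, one_mul]
      _ ≤ A ^ d * tR Γ π p (cone r' u')ᶜ z y := mul_le_mul' (pow_le_pow_left' Ab d) e3
  have hsum : ∑' y, tR Γ π p (cone r' u')ᶜ x' y ≤ A ^ d * ∑' y, tR Γ π p (cone r' u')ᶜ z y := by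
    rw [← ENNReal.tsum_mul_left]
    exact ENNReal.tsum_le_tsum hy
  have e := hlow p h0 h1 s u r' u' x z R k1 k2 k3 (by have := dd_tri (π z) t u'; omega)
    (out _ t (self_mem_cone _ _) (by rw [dd_comm]; exact hz))
  refine (mul_le_mul_right hsum _).trans ?_
  rw [mul_left_comm, pow_succ A d, mul_assoc (A ^ d), mul_assoc (A ^ d)]
  exact mul_le_mul_right (e.trans (mul_le_mul_left (mul_le_mul_left AC _) _)) _

end

section
variable {V : Type*} {TX : Type*} [TrS TX]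
variable {Γ : SimpleGraph V} {G : Type u} [Group G] [MulAction G V]
variable {π : V → TX}

lemma m2a_cone {q u z : TX} (h : dd q u = 1) (hz : z ∈ half q u) :
    (cone z q)ᶜ = half q u := by
  have h' : dd u q = 1 := by rw [dd_comm]; exact h
  have hz' : z ∉ cone u q := by
    rw [← geo_half h']
    intro h2
    have h3 : dd z q < dd z u := h2
    have h4 : dd z u < dd z q := hz
    omega
  rw [cone_reroot hz']
  obtain ⟨h1, h2⟩ := geo_adj h'
  ext y
  change y ∉ cone u q ↔ dd y u < dd y q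
  constructor
  · intro hy; have := h2 y hy; omega
  · intro hy hc; have := h1 y hc; omega

end

section
variable {V : Type*} {TX : Type*} [TrS TX]
variable {Γ : SimpleGraph V} {G : Type u} [Group G] [MulAction G V]
variable {π : V → TX}


end

section
variable {V : Type*} {TX : Type*} [TrS TX]
variable {Γ : SimpleGraph V} {G : Type u} [Group G] [MulAction G V]
variable {ρ : G →* Equiv.Perm TX} {π : V → TX}


lemma m2aT_level (hs : Tj Γ ρ π) {s : Finset V} (hcof : ∀ v, ∃ g : G, g • v ∈ s) {p : ℝ}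
    {L D j : ℕ} {k : ℝ≥0∞} (hD : D + 1 ≤ L)
    (h2 : ∀ x, ∑' t, ii (dd (π x) t = j) * ee π (tR Γ π p) L x t ≤ k)
    {q u : TX} {w : V} (hq : dd q u = 1) (hw : dd (π w) u ≤ D) :
    ∑' v, ii (π v ∈ half q u ∧ dd (π v) q = j) * tR Γ π p (half q u) w v ≤ s.card * k := by
  choose g hg using hcof
  let F : V × TX × V → ℝ≥0∞ := fun y => ii (y.1 ∈ s) * (ii (dd (π y.1) y.2.1 = j) *
    (ii (dd (π y.2.2) y.2.1 ≤ L) * tR Γ π p (cone (π y.1) y.2.1)ᶜ y.1 y.2.2))
  let ι : V → V × TX × V := fun v => (g v • v, ρ (g v) q, g v • w)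
  have hι : Function.Injective ι := by
    intro v v' h
    simp only [ι, Prod.ext_iff] at h
    have e : g v = g v' := by
      have : ((g v')⁻¹ * g v) • w = w := by rw [mul_smul, h.2.2, inv_smul_smul]
      exact (inv_mul_eq_one.1 (hs.geom.free _ _ this)).symm
    have h1 := h.1
    rw [e] at h1
    exact MulAction.injective _ h1
  have hle : ∀ v, ii (π v ∈ half q u ∧ dd (π v) q = j) * tR Γ π p (half q u) w v ≤ F (ι v) := by
    intro v
    by_cases hv : π v ∈ half q u ∧ dd (π v) q = j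
    · have hwq : dd (π w) q ≤ L := by
        have h3 := dd_tri (π w) u q
        rw [dd_comm u q] at h3
        omega
      simp only [F, ι]
      rw [ii_true hv, ii_true (hg v), hs.eqv, hs.eqv, hs.act.iso, hs.act.iso, ii_true hv.2,
        ii_true hwq,
        hs.tR_smul]
      have e : {z | ρ (g v) z ∈ (cone (ρ (g v) (π v)) (ρ (g v) q))ᶜ} = half q u := by
        rw [← m2a_cone hq hv.1]
        ext z
        refine not_congr ?_
        change dd (ρ (g v) (π v)) (ρ (g v) z) =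
          dd (ρ (g v) (π v)) (ρ (g v) q) + dd (ρ (g v) q) (ρ (g v) z) ↔
            dd (π v) z = dd (π v) q + dd q z
        rw [hs.act.iso, hs.act.iso, hs.act.iso]
      rw [e]
      simp only [one_mul]
      exact (tau_symm _ _ _).le
    · rw [ii_false hv, zero_mul]; exact zero_le
  refine (ENNReal.tsum_le_tsum hle).trans
    ((ENNReal.tsum_comp_le_tsum_of_injective hι F).trans ?_)
  rw [ENNReal.tsum_prod']
  have h3 : ∀ x, ∑' y : TX × V, F (x, y) ≤ ii (x ∈ s) * k := by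
    intro x
    simp only [F]
    rw [ENNReal.tsum_mul_left, ENNReal.tsum_prod']
    refine mul_le_mul_right (le_trans (le_of_eq ?_) (h2 x)) _
    refine tsum_congr fun t => ?_
    simp only [ee]
    rw [ENNReal.tsum_mul_left]
  refine (ENNReal.tsum_le_tsum h3).trans ?_
  rw [ENNReal.tsum_mul_right, tsum_eq_sum (s := s) fun b hb => ii_false hb]
  refine mul_le_mul_left ?_ _
  refine (Finset.sum_le_sum fun b _ => ii_le_one _).trans ?_
  simp

/-- mass transport bound for the tree-graph sum -/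
theorem Tj.m2a (hs : Tj Γ ρ π) : ∃ c₀ : ℕ, ∀ (p : ℝ) (L D P : ℕ) (k : ℝ≥0∞), 0 ≤ p → p ≤ 1 →
    1 ≤ P → D + 1 ≤ L →
    (∀ x u, π x ≠ u → ee π (tR Γ π p) L x u ≤ k * 2⁻¹ ^ (dd (π x) u / P)) →
    (∀ x n, 1 ≤ n → ∑' v, ii (dd (π x) v = n) * ee π (tR Γ π p) L x v ≤ k) →
    ∀ (q u : TX) (w : V), dd q u = 1 → π w ∈ half q u → dd (π w) u ≤ D →
      ∑' v, tR Γ π p (half q u) w v *
        (∑' a, ii (dd (π a) u ≤ D) * tR Γ π p (half q u) v a) ^ 2 ≤ c₀ * k ^ 3 * (2 * P) := by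
  obtain ⟨s, hcof⟩ := hs.geom.cof
  refine ⟨s.card, fun p L D P k _ _ hP hD h1 h2 q u w hq hw hwD => ?_⟩
  have hterm : ∀ v, tR Γ π p (half q u) w v *
      (∑' a, ii (dd (π a) u ≤ D) * tR Γ π p (half q u) v a) ^ 2 ≤
      ∑' j : ℕ, ii (π v ∈ half q u ∧ dd (π v) q = j) * tR Γ π p (half q u) w v *
        (k ^ 2 * 2⁻¹ ^ (j / P)) := by
    intro v
    by_cases hv : π v ∈ half q u
    · refine le_trans ?_ (ENNReal.le_tsum (dd (π v) q))
      rw [ii_true ⟨hv, rfl⟩, one_mul]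
      refine mul_le_mul_right ?_ _
      have hne : π v ≠ q := by
        intro e
        have h3 : dd (π v) u < dd (π v) q := hv
        rw [e, dd_self] at h3
        omega
      have h4 : ∑' a, ii (dd (π a) u ≤ D) * tR Γ π p (half q u) v a ≤
          k * 2⁻¹ ^ (dd (π v) q / P) := by
        refine le_trans ?_ (h1 v q hne)
        unfold ee
        rw [m2a_cone hq hv]
        refine ENNReal.tsum_le_tsum fun a => mul_le_mul_left (ii_mono fun ha => ?_) _
        have h3 := dd_tri (π a) u q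
        rw [dd_comm u q] at h3
        omega
      refine (pow_le_pow_left' h4 2).trans ?_
      rw [mul_pow]
      refine mul_le_mul_right ?_ _
      rw [pow_two]
      exact mul_le_of_le_one_left' (pow_le_one' (by simp) _)
    · have : tR Γ π p (half q u) w v = 0 :=
        tau_zero (S := π ⁻¹' half q u) hw hv fun a _ b hb => by
          unfold wU
          rw [if_neg]
          rw [mk_mem_inE]
          tauto
      rw [this, zero_mul]; exact zero_le
  refine (ENNReal.tsum_le_tsum hterm).trans ?_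
  rw [ENNReal.tsum_comm, ← m2a_geom hP, ← ENNReal.tsum_mul_left]
  refine ENNReal.tsum_le_tsum fun j => ?_
  rw [ENNReal.tsum_mul_right]
  have hl : ∑' v, ii (π v ∈ half q u ∧ dd (π v) q = j) * tR Γ π p (half q u) w v ≤
      s.card * k := by
    rcases Nat.eq_zero_or_pos j with rfl | hj
    · refine le_trans (le_of_eq (ENNReal.tsum_eq_zero.2 fun v => ?_)) zero_le
      rw [ii_false, zero_mul]
      rintro ⟨h3, h4⟩
      have h5 : dd (π v) u < dd (π v) q := h3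
      omega
    · exact m2aT_level hs hcof hD (fun x => h2 x j hj) hq hwD
  refine (mul_le_mul_left hl _).trans (le_of_eq ?_)
  ring

theorem Tj.m2b (hs : Tj Γ ρ π) {p : ℝ} (h0 : 0 ≤ p) (h1 : p ≤ 1) (R : Set TX)
    (u : TX) {D : ℕ} (w : V) {w' : V} (hw' : dd (π w') u ≤ D) (F : Finset (Sym2 V))
    (T : Finset G) (hT : ∀ n ∈ T, ρ n u = u) :
    ENNReal.ofReal (∑ a ∈ T, ∑ b ∈ T, Pr F (wU p (inE Γ (π ⁻¹' R)))
      (fun ω => Conn ω w (a • w') ∧ Conn ω w (b • w'))) ≤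
      2 * ∑' v, tR Γ π p R w v * (∑' a, ii (dd (π a) u ≤ D) * tR Γ π p R v a) ^ 2 := by
  have hw := wU_ok h0 h1 (inE Γ (π ⁻¹' R))
  have inj : ∀ a ∈ T, ∀ b ∈ T, a • w' = b • w' → a = b := by
    intro a _ b _ h
    have : (b⁻¹ * a) • w' = w' := by rw [mul_smul, h, inv_smul_smul]
    exact (inv_mul_eq_one.1 (hs.geom.free _ _ this)).symm
  have row : ∀ v, ∑ a ∈ T, tR Γ π p R v (a • w') ≤
      ∑' a, ii (dd (π a) u ≤ D) * tR Γ π p R v a := by
    intro v
    refine le_trans (le_of_eq ?_) (ENNReal.sum_le_tsum (T.image (· • w')))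
    rw [Finset.sum_image inj]
    refine Finset.sum_congr rfl fun a ha => ?_
    rw [ii_true, one_mul]
    rw [hs.eqv, ← hT a ha, hs.act.iso]
    exact hw'
  rw [ENNReal.ofReal_sum_of_nonneg fun a _ => Finset.sum_nonneg fun b _ => Pr_nonneg hw _]
  have step : ∀ a ∈ T, ENNReal.ofReal (∑ b ∈ T, Pr F (wU p (inE Γ (π ⁻¹' R)))
      (fun ω => Conn ω w (a • w') ∧ Conn ω w (b • w'))) ≤ ∑ b ∈ T, 2 * ∑' v,
        tR Γ π p R w v * (tR Γ π p R v (a • w') * tR Γ π p R v (b • w')) := by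
    intro a _
    rw [ENNReal.ofReal_sum_of_nonneg fun b _ => Pr_nonneg hw _]
    exact Finset.sum_le_sum fun b _ => treeg hw F w _ _
  refine (Finset.sum_le_sum step).trans ?_
  simp only [← Finset.mul_sum]
  refine mul_le_mul_right ?_ 2
  have sw : ∑ a ∈ T, ∑ b ∈ T, ∑' v,
      tR Γ π p R w v * (tR Γ π p R v (a • w') * tR Γ π p R v (b • w')) = ∑' v, ∑ a ∈ T, ∑ b ∈ T,
      tR Γ π p R w v * (tR Γ π p R v (a • w') * tR Γ π p R v (b • w')) := by
    rw [Summable.tsum_finsetSum fun _ _ => ENNReal.summable]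
    refine Finset.sum_congr rfl fun a _ => ?_
    rw [Summable.tsum_finsetSum fun _ _ => ENNReal.summable]
  rw [sw]
  refine ENNReal.tsum_le_tsum fun v => ?_
  simp only [← Finset.mul_sum, ← Finset.sum_mul]
  rw [pow_two]
  exact mul_le_mul_right (mul_le_mul' (row v) (row v)) _

end

section
variable {V : Type*} {TX : Type*} [TrS TX]
variable {Γ : SimpleGraph V} {G : Type u} [Group G] [MulAction G V]
variable {π : V → TX}

end

section
variable {V : Type*} {TX : Type*} [TrS TX]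
variable {Γ : SimpleGraph V} {G : Type u} [Group G] [MulAction G V]
variable {ρ : G →* Equiv.Perm TX} {π : V → TX}


/-- polynomial bound for the second moment -/
theorem Tj.m2c (hs : Tj Γ ρ π) {p₀ : ℝ} (hp₀ : 0 < p₀) {D₀ : ℕ}
    (hH : HarP Γ π p₀ D₀) : ∃ (C : ℝ) (s : ℕ), ∀ p, p₀ ≤ p → p ≤ 1 → chi Γ p ≠ ⊤ →
      ∀ (q u : TX) (w w' : V), dd q u = 1 → π w ∈ half q u → dd (π w) u ≤ D₀ →
        dd (π w') u ≤ D₀ → ∀ (F : Finset (Sym2 V)) (T : Finset G), (∀ n ∈ T, ρ n u = u) →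
        ∑ a ∈ T, ∑ b ∈ T, Pr F (wU p (inE Γ (π ⁻¹' half q u)))
          (fun ω => Conn ω w (a • w') ∧ Conn ω w (b • w'))
          ≤ C * (mm π (tR Γ π p) D₀).toReal ^ s := by
  obtain ⟨c₀, hc₀⟩ := hs.m2a
  obtain ⟨L, Δ, C, hL, hC, hker⟩ := hs.ker2 hp₀ hH (D₀ + 1)
  obtain ⟨A, hA1, hA, hlow⟩ := hs.low_q hp₀ hH (L + 1)
  set A' := A.toReal with hA'
  set C' := (C (L + 1)).toReal with hC'
  have eA : A = ENNReal.ofReal A' := (ENNReal.ofReal_toReal hA).symm
  have eC : C (L + 1) = ENNReal.ofReal C' := (ENNReal.ofReal_toReal (hC _)).symm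
  have hA0 : 0 ≤ A' := ENNReal.toReal_nonneg
  have hC0 : 0 ≤ C' := ENNReal.toReal_nonneg
  obtain ⟨a, ha⟩ := pow_unbounded_of_one_lt A' (show (1 : ℝ) < 2 by norm_num)
  set K₁ : ℝ := A' * (2 + 8 * Δ * C') ^ a with hK₁
  have hK0 : 0 ≤ K₁ := by positivity
  refine ⟨256 * c₀ * K₁ ^ 3 * (8 * Δ * K₁ + L + 3), 4 * (a + 1),
    fun p h0 h1 hχ q u w w' hq hw0 hw hw' F T hT => ?_⟩
  have hp : 0 ≤ p := hp₀.le.trans h0
  have hfin : mm π (tR Γ π p) D₀ ≠ ⊤ := ne_top_of_le_ne_top hχ (mm_le_chi π Γ hp h1 D₀)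
  set m := (mm π (tR Γ π p) D₀).toReal with hm
  have em : mm π (tR Γ π p) D₀ = ENNReal.ofReal m := (ENNReal.ofReal_toReal hfin).symm
  have hm1 : 1 ≤ m := by
    have := ENNReal.toReal_mono hfin (one_le_mm w π Γ p D₀)
    simpa using this
  have hm0 : 0 ≤ m := by linarith
  obtain ⟨J, hJ0, hJ1, hJ2⟩ := M2c_pow (y := 4 * (Δ * (C' * m))) (by positivity)
  set k : ℝ := A' ^ (J + 1) * m with hk
  have hk0 : 0 ≤ k := by positivity
  have ek : A ^ (J + 1) * mm π (tR Γ π p) D₀ = ENNReal.ofReal k := by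
    rw [hk, ENNReal.ofReal_mul (by positivity), ENNReal.ofReal_pow hA0, ← eA, ← em]
  have hkK : k ≤ K₁ * m ^ (a + 1) := by
    have e1 : A' ^ J ≤ ((2 : ℝ) ^ J) ^ a := by
      rw [← pow_mul, mul_comm, pow_mul]
      exact pow_le_pow_left₀ hA0 ha.le J
    have e2 : (2 : ℝ) ^ J ≤ (2 + 8 * Δ * C') * m := by nlinarith
    have e3 : ((2 : ℝ) ^ J) ^ a ≤ ((2 + 8 * Δ * C') * m) ^ a :=
      pow_le_pow_left₀ (by positivity) e2 a
    calc k = A' * m * A' ^ J := by rw [hk]; ring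
      _ ≤ A' * m * ((2 + 8 * Δ * C') * m) ^ a :=
          mul_le_mul_of_nonneg_left (e1.trans e3) (by positivity)
      _ = _ := by rw [hK₁, mul_pow]; ring
  clear_value k
  set P : ℕ := ⌈8 * Δ * k⌉₊ + L + 2 with hP
  have hP1 : 2 * (Δ : ℝ≥0∞) * (4 * ENNReal.ofReal k) + L + 2 ≤ P := by
    rw [hP]
    push_cast
    gcongr
    have e : 2 * (Δ : ℝ≥0∞) * (4 * ENNReal.ofReal k) = ENNReal.ofReal (8 * Δ * k) := by
      rw [ENNReal.ofReal_mul (by positivity), ENNReal.ofReal_mul (by positivity),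
        ENNReal.ofReal_natCast, ENNReal.ofReal_ofNat]
      ring
    rw [e, ← ENNReal.ofReal_natCast]
    exact ENNReal.ofReal_le_ofReal (Nat.le_ceil _)
  have hP2 : (P : ℝ) ≤ (8 * Δ * K₁ + L + 3) * m ^ (a + 1) := by
    have e1 := (Nat.ceil_lt_add_one (show 0 ≤ 8 * Δ * k by positivity)).le
    have e2 : 1 ≤ m ^ (a + 1) := one_le_pow₀ hm1
    have e3 : 8 * Δ * k ≤ 8 * Δ * (K₁ * m ^ (a + 1)) :=
      mul_le_mul_of_nonneg_left hkK (by positivity)
    have e4 : (L : ℝ) + 3 ≤ (L + 3) * m ^ (a + 1) := le_mul_of_one_le_right (by positivity) e2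
    rw [hP]
    push_cast
    nlinarith
  have hd := dec_q (hker p h0 h1 hχ) (ENNReal.mul_ne_top (hC _) hfin) hJ0 (by
      rw [eC, em]
      have e : 4 * ((Δ : ℝ≥0∞) * (ENNReal.ofReal C' * ENNReal.ofReal m)) =
          ENNReal.ofReal (4 * (Δ * (C' * m))) := by
        rw [ENNReal.ofReal_mul (by positivity), ENNReal.ofReal_mul (by positivity),
          ENNReal.ofReal_mul hC0, ENNReal.ofReal_natCast, ENNReal.ofReal_ofNat]
      have e' : (2 : ℝ≥0∞) ^ J = ENNReal.ofReal (2 ^ J) := by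
        rw [ENNReal.ofReal_pow (by norm_num), ENNReal.ofReal_ofNat]
      rw [e, e']
      exact ENNReal.ofReal_le_ofReal hJ1)
    (k := ENNReal.ofReal k) (ek ▸ hlow p h0 h1 J) hP1
  have h2 := hc₀ p L D₀ P (4 * ENNReal.ofReal k) hp h1 (by omega) hL hd.1 hd.2 q u w hq hw0 hw
  have h3 := (hs.m2b hp h1 (half q u) u w hw' F T hT).trans (mul_le_mul_right h2 2)
  have e : 2 * ((c₀ : ℝ≥0∞) * (4 * ENNReal.ofReal k) ^ 3 * (2 * P)) =
      ENNReal.ofReal (256 * c₀ * k ^ 3 * P) := by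
    rw [ENNReal.ofReal_mul (by positivity), ENNReal.ofReal_mul (by positivity),
      ENNReal.ofReal_mul (by positivity), ENNReal.ofReal_pow hk0, ENNReal.ofReal_natCast,
      ENNReal.ofReal_natCast, ENNReal.ofReal_ofNat]
    ring
  rw [e, ENNReal.ofReal_le_ofReal_iff (by positivity)] at h3
  refine h3.trans ?_
  calc 256 * c₀ * k ^ 3 * P ≤ 256 * c₀ * (K₁ * m ^ (a + 1)) ^ 3 *
        ((8 * Δ * K₁ + L + 3) * m ^ (a + 1)) := by gcongr
    _ = _ := by ring

end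

end Vale.Agent.P165T
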