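import Mathlib

namespace Vale.Agent.P165T

variable {X : Type*} {T : SimpleGraph X}

lemma tr_pre (hT : T.Connected) (r v : X) {j : ℕ} (hj : j ≤ T.dist r v) :
    ∃ u, T.dist r u = j ∧ T.dist r v = T.dist r u + T.dist u v := by
  obtain ⟨p, hp⟩ := hT.exists_walk_length_eq_dist r v
  have h1 := SimpleGraph.dist_le (p.take j)
  have h2 := SimpleGraph.dist_le (p.drop j)
  have h3 := hT.dist_triangle (u := r) (v := p.getVert j) (w := v)
  rw [SimpleGraph.Walk.take_length] at h1
  rw [SimpleGraph.Walk.drop_length] at h2
  exact ⟨p.getVert j, by omega, by omega⟩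

lemma tr_uniq (hT : T.IsTree) {r u u' v : X} (h : T.dist r v = T.dist r u + T.dist u v)
    (h' : T.dist r v = T.dist r u' + T.dist u' v) (e : T.dist r u = T.dist r u') : u = u' := by
  obtain ⟨p, hp⟩ := hT.connected.exists_walk_length_eq_dist r u
  obtain ⟨q, hq⟩ := hT.connected.exists_walk_length_eq_dist u v
  obtain ⟨p', hp'⟩ := hT.connected.exists_walk_length_eq_dist r u'
  obtain ⟨q', hq'⟩ := hT.connected.exists_walk_length_eq_dist u' v
  have a := (p.append q).isPath_of_length_eq_dist (by rw [SimpleGraph.Walk.length_append]; omega)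
  have a' := (p'.append q').isPath_of_length_eq_dist
    (by rw [SimpleGraph.Walk.length_append]; omega)
  have b : p.append q = p'.append q' := (hT.existsUnique_path r v).unique a a'
  have c := congrArg (fun w => w.getVert p.length) b
  have d : p.length = p'.length := by omega
  simp only [SimpleGraph.Walk.getVert_append'] at c
  rw [if_pos le_rfl, if_pos d.le, SimpleGraph.Walk.getVert_length, d,
    SimpleGraph.Walk.getVert_length] at c
  exact c

lemma tr_fin (hT : T.Connected) (hf : ∀ v, (T.neighborSet v).Finite) (r : X) (n : ℕ) :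
    {v | T.dist r v ≤ n}.Finite := by
  induction n with
  | zero =>
    refine (Set.finite_singleton r).subset fun v hv => ?_
    have hv' : T.dist r v ≤ 0 := hv
    exact (hT.dist_eq_zero_iff.1 (Nat.le_zero.1 hv')).symm
  | succ n ih =>
    refine (ih.union (ih.biUnion fun u _ => hf u)).subset fun v hv => ?_
    have hv' : T.dist r v ≤ n + 1 := hv
    by_cases h : T.dist r v ≤ n
    · exact Or.inl h
    · obtain ⟨u, h1, h2⟩ := tr_pre hT r v (j := n) (by omega)
      refine Or.inr (Set.mem_biUnion (x := u) h1.le ?_)
      exact SimpleGraph.dist_eq_one_iff_adj.1 (by omega)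

end Vale.Agent.P165T
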